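import Vale.Agent.P248.Quarter

/-!
# P248: the balance of a body between two half spaces

`bal S φ ψ` compares the part of `S` where both functionals are nonnegative with a quarter of `S`.
-/

namespace Vale.Agent.P248.Three

open MeasureTheory Set Filter
open scoped ENNReal Topology

variable {d n : ℕ}

/-- The part of `S` where both functionals are nonnegative. -/
def quadSet (S : Set (Fin d → ℝ)) (φ ψ : (Fin d → ℝ) →ₗ[ℝ] ℝ) : Set (Fin d → ℝ) :=
  S ∩ {z | 0 ≤ φ z} ∩ {z | 0 ≤ ψ z}

/-- Four times the common part, minus the whole. -/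
noncomputable def bal (S : Set (Fin d → ℝ)) (φ ψ : (Fin d → ℝ) →ₗ[ℝ] ℝ) : ℝ :=
  4 * volume.real (quadSet S φ ψ) - volume.real S

lemma null_ker {φ : (Fin d → ℝ) →ₗ[ℝ] ℝ} (h : φ ≠ 0) :
    volume {z : Fin d → ℝ | φ z = 0} = 0 := by
  refine Measure.addHaar_submodule volume (LinearMap.ker φ) fun e => h ?_
  exact LinearMap.ker_eq_top.1 e

lemma good_preimage {K : Set (Fin n → ℝ)} (hK : Good K) {L : (Fin d → ℝ) →ₗ[ℝ] (Fin n → ℝ)}
    (hL : Function.Injective L) : Good (L ⁻¹' K) where
  compact := (LinearMap.isClosedEmbedding_of_injective (LinearMap.ker_eq_bot.2 hL)).isCompact_preimage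
    hK.compact
  convex := hK.convex.linear_preimage L
  neg z hz := by simpa using hK.neg _ hz
  mem_nhds := (L.continuous_of_finiteDimensional.tendsto' 0 0 (map_zero L)) hK.mem_nhds

variable {S : Set (Fin d → ℝ)} {φ ψ φ' ψ' : (Fin d → ℝ) →ₗ[ℝ] ℝ}

lemma good_pos (hS : Good S) : 0 < volume.real S :=
  ENNReal.toReal_pos (Measure.measure_pos_of_mem_nhds volume hS.mem_nhds).ne'
    hS.compact.measure_lt_top.ne

lemma half_space (hS : Good S) (hφ : φ ≠ 0) :
    2 * volume.real (S ∩ {z | 0 ≤ φ z}) = volume.real S := by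
  have hm : MeasurableSet S := hS.compact.isClosed.measurableSet
  have hc := φ.continuous_of_finiteDimensional.measurable
  set P := S ∩ {z | 0 ≤ φ z}
  set Q := S ∩ {z | φ z ≤ 0}
  have hP : MeasurableSet P := hm.inter (measurableSet_le measurable_const hc)
  have hQ : MeasurableSet Q := hm.inter (measurableSet_le hc measurable_const)
  have e : Q = Neg.neg ⁻¹' P := by
    ext z
    simp only [P, Q, mem_inter_iff, mem_preimage, Set.mem_ofPred_eq, map_neg, Left.nonneg_neg_iff]
    exact ⟨fun h => ⟨hS.neg _ h.1, h.2⟩, fun h => ⟨by simpa using hS.neg _ h.1, h.2⟩⟩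
  have eQ : volume.real Q = volume.real P := by
    rw [measureReal_def, e, (Measure.measurePreserving_neg _).measure_preimage hP.nullMeasurableSet,
      measureReal_def]
  have hfin : ∀ {T : Set (Fin d → ℝ)}, T ⊆ S → volume T ≠ ⊤ := fun h =>
    ne_top_of_le_ne_top hS.compact.measure_lt_top.ne (measure_mono h)
  have hu := measureReal_union_add_inter₀ (μ := volume) (s := P) hQ.nullMeasurableSet
    (hfin inter_subset_left) (hfin inter_subset_left)
  have hz : volume.real (P ∩ Q) = 0 := by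
    rw [measureReal_def, measure_mono_null (t := {z | φ z = 0})
      (fun z hz => le_antisymm hz.2.2 hz.1.2) (null_ker hφ), ENNReal.toReal_zero]
  rw [hz, add_zero, eQ, show P ∪ Q = S by
    ext z; simp only [P, Q, mem_union, mem_inter_iff, Set.mem_ofPred_eq]
    exact ⟨fun h => h.elim (·.1) (·.1), fun h => (le_total 0 (φ z)).imp (⟨h, ·⟩) (⟨h, ·⟩)⟩] at hu
  linarith

lemma bal_comm : bal S φ ψ = bal S ψ φ := by
  simp only [bal, quadSet, inter_assoc, inter_comm {z | 0 ≤ φ z}]

lemma bal_self (hS : Good S) (hφ : φ ≠ 0) : bal S φ φ = volume.real S := by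
  have := half_space hS hφ
  simp only [bal, quadSet, inter_assoc, inter_self]
  linarith

lemma bal_neg_left (hS : Good S) (hφ : φ ≠ 0) (hψ : ψ ≠ 0) : bal S (-φ) ψ = -bal S φ ψ := by
  have hm : MeasurableSet S := hS.compact.isClosed.measurableSet
  have hc := fun χ : (Fin d → ℝ) →ₗ[ℝ] ℝ => χ.continuous_of_finiteDimensional.measurable
  have hfin : ∀ {T : Set (Fin d → ℝ)}, T ⊆ S → volume T ≠ ⊤ := fun h =>
    ne_top_of_le_ne_top hS.compact.measure_lt_top.ne (measure_mono h)
  have hq : MeasurableSet (quadSet S (-φ) ψ) :=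
    (hm.inter (measurableSet_le measurable_const (hc (-φ)))).inter
      (measurableSet_le measurable_const (hc ψ))
  have hu := measureReal_union_add_inter₀ (μ := volume) (s := quadSet S φ ψ) hq.nullMeasurableSet
    (hfin (inter_subset_left.trans inter_subset_left))
    (hfin (inter_subset_left.trans inter_subset_left))
  have e : quadSet S φ ψ ∪ quadSet S (-φ) ψ = S ∩ {z | 0 ≤ ψ z} := by
    ext z
    simp only [quadSet, mem_union, mem_inter_iff, Set.mem_ofPred_eq, LinearMap.neg_apply,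
      Left.nonneg_neg_iff]
    constructor
    · rintro (h | h) <;> exact ⟨h.1.1, h.2⟩
    · intro h
      exact (le_total 0 (φ z)).imp (⟨⟨h.1, ·⟩, h.2⟩) (⟨⟨h.1, ·⟩, h.2⟩)
  have hz : volume.real (quadSet S φ ψ ∩ quadSet S (-φ) ψ) = 0 := by
    rw [measureReal_def, measure_mono_null (t := {z | φ z = 0}) ?_ (null_ker hφ),
      ENNReal.toReal_zero]
    intro z hz
    have h1 : 0 ≤ φ z := hz.1.1.2
    have h2 : 0 ≤ -φ z := hz.2.1.2
    exact le_antisymm (by linarith) h1
  rw [e, hz, add_zero] at hu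
  have := half_space hS hψ
  simp only [bal]
  linarith

lemma bal_neg_right (hS : Good S) (hφ : φ ≠ 0) (hψ : ψ ≠ 0) : bal S φ (-ψ) = -bal S φ ψ := by
  rw [bal_comm, bal_neg_left hS hψ hφ, bal_comm]

lemma bal_smul_right {r : ℝ} (hr : 0 < r) : bal S φ (r • ψ) = bal S φ ψ := by
  have : {z : Fin d → ℝ | 0 ≤ (r • ψ) z} = {z | 0 ≤ ψ z} := by
    ext z; simp [mul_nonneg_iff_of_pos_left hr]
  simp only [bal, quadSet, this]

/-- A measure preserving change of coordinates. -/
lemma bal_comp (hS : MeasurableSet S) {R : (Fin d → ℝ) →ₗ[ℝ] (Fin d → ℝ)}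
    (hR : MeasurePreserving R volume volume) :
    bal (R ⁻¹' S) (φ ∘ₗ R) (ψ ∘ₗ R) = bal S φ ψ := by
  have hm : MeasurableSet (quadSet S φ ψ) :=
    (hS.inter (measurableSet_le measurable_const φ.continuous_of_finiteDimensional.measurable)).inter
      (measurableSet_le measurable_const ψ.continuous_of_finiteDimensional.measurable)
  have e : quadSet (R ⁻¹' S) (φ ∘ₗ R) (ψ ∘ₗ R) = R ⁻¹' quadSet S φ ψ := rfl
  simp only [bal, e, measureReal_def, hR.measure_preimage hm.nullMeasurableSet,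
    hR.measure_preimage hS.nullMeasurableSet]

/-- A larger pair of half spaces gives a larger balance. -/
lemma bal_lt (hS : Good S) (hle : ∀ z, 0 ≤ φ z → 0 ≤ ψ z → 0 ≤ φ' z ∧ 0 ≤ ψ' z)
    {z₀ : Fin d → ℝ} (h1 : 0 < φ' z₀) (h2 : 0 < ψ' z₀) (h3 : φ z₀ < 0 ∨ ψ z₀ < 0) :
    bal S φ ψ < bal S φ' ψ' := by
  have hm : MeasurableSet S := hS.compact.isClosed.measurableSet
  set U : Set (Fin d → ℝ) :=
    interior S ∩ {z | 0 < φ' z} ∩ {z | 0 < ψ' z} ∩ ({z | φ z < 0} ∪ {z | ψ z < 0}) with hU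
  have ho : IsOpen U :=
    ((isOpen_interior.inter (isOpen_lt continuous_const φ'.continuous_of_finiteDimensional)).inter
      (isOpen_lt continuous_const ψ'.continuous_of_finiteDimensional)).inter
      ((isOpen_lt φ.continuous_of_finiteDimensional continuous_const).union
        (isOpen_lt ψ.continuous_of_finiteDimensional continuous_const))
  have hne : U.Nonempty := by
    have hev : ∀ᶠ r : ℝ in 𝓝 0, r • z₀ ∈ interior S :=
      ((continuous_id.smul continuous_const).tendsto' 0 0 (by simp)).eventually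
        (isOpen_interior.mem_nhds (mem_interior_iff_mem_nhds.2 hS.mem_nhds))
    obtain ⟨r, hr, hr0⟩ := ((hev.filter_mono nhdsWithin_le_nhds).and
      (self_mem_nhdsWithin (a := (0 : ℝ)) (s := Ioi 0))).exists
    refine ⟨r • z₀, ⟨⟨⟨hr, ?_⟩, ?_⟩, h3.imp ?_ ?_⟩⟩
    · simp [mul_pos (Set.mem_Ioi.1 hr0) h1]
    · simp [mul_pos (Set.mem_Ioi.1 hr0) h2]
    · intro h; simp [mul_neg_of_pos_of_neg (Set.mem_Ioi.1 hr0) h]
    · intro h; simp [mul_neg_of_pos_of_neg (Set.mem_Ioi.1 hr0) h]
  have hfin : ∀ {T : Set (Fin d → ℝ)}, T ⊆ S → volume T ≠ ⊤ := fun h =>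
    ne_top_of_le_ne_top hS.compact.measure_lt_top.ne (measure_mono h)
  have hUS : U ⊆ S := fun z hz => interior_subset hz.1.1.1
  have hd : Disjoint (quadSet S φ ψ) U := by
    refine Set.disjoint_left.2 fun z hz hu => ?_
    rcases hu.2 with h | h
    · exact absurd hz.1.2 (not_le.2 (show φ z < 0 from h))
    · exact absurd hz.2 (not_le.2 (show ψ z < 0 from h))
  have hsub : quadSet S φ ψ ∪ U ⊆ quadSet S φ' ψ' := by
    rintro z (hz | hz)
    · exact ⟨⟨hz.1.1, (hle z hz.1.2 hz.2).1⟩, (hle z hz.1.2 hz.2).2⟩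
    · exact ⟨⟨hUS hz, le_of_lt (show 0 < φ' z from hz.1.1.2)⟩,
        le_of_lt (show 0 < ψ' z from hz.1.2)⟩
  have h4 := measureReal_mono (μ := volume) hsub
    (hfin (inter_subset_left.trans inter_subset_left))
  rw [measureReal_union hd ho.measurableSet (hfin (inter_subset_left.trans inter_subset_left))
    (hfin hUS)] at h4
  have h5 : 0 < volume.real U := ENNReal.toReal_pos (ho.measure_pos volume hne).ne' (hfin hUS)
  simp only [bal]
  linarith

/-- Preimages under a continuous family of injective linear maps, cut by two half spaces, have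
continuous volume. -/
lemma continuousWithinAt_bal {X : Type*} [TopologicalSpace X] [FirstCountableTopology X]
    {K : Set (Fin n → ℝ)} (hK : Good K) (L : X → (Fin d → ℝ) →ₗ[ℝ] (Fin n → ℝ))
    (A B : X → (Fin d → ℝ) →ₗ[ℝ] ℝ) (hLc : Continuous fun p : X × (Fin d → ℝ) => L p.1 p.2)
    (hAc : ∀ z, Continuous fun q => A q z) (hBc : ∀ z, Continuous fun q => B q z) {q₀ : X}
    {T : Set X} (hinj : Function.Injective (L q₀)) (hA : A q₀ ≠ 0) (hB : B q₀ ≠ 0) :
    ContinuousWithinAt (fun q => bal (L q ⁻¹' K) (A q) (B q)) T q₀ := by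
  have hKc := hK.compact.isClosed
  -- a uniform ball
  obtain ⟨R, hR⟩ := (isBounded_iff_forall_norm_le).1 hK.compact.isBounded
  obtain ⟨c, hc, hbound⟩ : ∃ c > 0, ∀ᶠ q in 𝓝 q₀, ∀ z, c * ‖z‖ ≤ ‖L q z‖ := by
    obtain ⟨c, hc, hle⟩ := LinearMap.exists_antilipschitzWith (L q₀) (LinearMap.ker_eq_bot.2 hinj)
    refine ⟨(c : ℝ)⁻¹ / 2, by positivity, ?_⟩
    have hev : ∀ᶠ q in 𝓝 q₀, ∀ z ∈ Metric.sphere (0 : Fin d → ℝ) 1,
        (c : ℝ)⁻¹ / 2 < ‖L q z‖ := by
      refine (isCompact_sphere _ _).eventually_forall_of_forall_eventually fun z hz => ?_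
      refine hLc.norm.continuousAt.eventually (lt_mem_nhds ?_)
      have := hle.le_mul_dist z 0
      rw [map_zero, dist_zero_right, dist_zero_right, mem_sphere_zero_iff_norm.1 hz] at this
      have hcp : (0 : ℝ) < c := by exact_mod_cast hc
      have : (c : ℝ)⁻¹ ≤ ‖L q₀ z‖ := by rw [inv_le_iff_one_le_mul₀ hcp]; linarith
      linarith [inv_pos.2 hcp]
    filter_upwards [hev] with q hq z
    rcases eq_or_ne z 0 with rfl | hz
    · simp
    · have h1 := hq (‖z‖⁻¹ • z) (by simp [norm_smul, hz])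
      rw [map_smul, norm_smul, norm_inv, norm_norm, inv_mul_eq_div,
        lt_div_iff₀ (norm_pos_iff.2 hz)] at h1
      exact h1.le
  set bd : (Fin d → ℝ) → ℝ := (Metric.closedBall 0 (R / c)).indicator fun _ => 1
  have hbd : Integrable bd volume :=
    (integrable_indicator_iff measurableSet_closedBall).2
      (integrableOn_const (isCompact_closedBall _ _).measure_lt_top.ne)
  have hmS : ∀ q, MeasurableSet (L q ⁻¹' K) := fun q =>
    hKc.measurableSet.preimage (L q).continuous_of_finiteDimensional.measurable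
  have hmQ : ∀ q, MeasurableSet (quadSet (L q ⁻¹' K) (A q) (B q)) := fun q =>
    ((hmS q).inter (measurableSet_le measurable_const
      (A q).continuous_of_finiteDimensional.measurable)).inter
      (measurableSet_le measurable_const (B q).continuous_of_finiteDimensional.measurable)
  have hnull : ∀ᵐ z ∂(volume : Measure (Fin d → ℝ)),
      z ∉ L q₀ ⁻¹' K \ L q₀ ⁻¹' interior K ∧ A q₀ z ≠ 0 ∧ B q₀ z ≠ 0 := by
    have h1 : volume (L q₀ ⁻¹' K \ L q₀ ⁻¹' interior K) = 0 := by
      refine measure_mono_null ?_ ((hK.convex.linear_preimage (L q₀)).addHaar_frontier volume)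
      rintro z ⟨hz, hz'⟩
      refine ⟨subset_closure hz, fun hi => hz' ?_⟩
      have hev : ∀ᶠ r : ℝ in 𝓝 1, r • z ∈ L q₀ ⁻¹' K :=
        ((continuous_id.smul continuous_const).tendsto' 1 z (by simp)).eventually
          (mem_interior_iff_mem_nhds.1 hi)
      obtain ⟨r, hr, hr1⟩ := ((hev.filter_mono nhdsWithin_le_nhds).and
        (self_mem_nhdsWithin (a := (1 : ℝ)) (s := Ioi 1))).exists
      have hr1 : (1 : ℝ) < r := hr1
      have := hK.convex.combo_interior_self_mem_interior (mem_interior_iff_mem_nhds.2 hK.mem_nhds)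
        (show L q₀ (r • z) ∈ K from hr) (a := 1 - r⁻¹) (b := r⁻¹)
        (sub_pos.2 ((inv_lt_one₀ (by linarith)).2 hr1)) (by positivity) (by ring)
      rwa [smul_zero, zero_add, map_smul, inv_smul_smul₀ (by linarith : r ≠ 0)] at this
    filter_upwards [measure_eq_zero_iff_ae_notMem.1 h1,
      measure_eq_zero_iff_ae_notMem.1 (null_ker hA),
      measure_eq_zero_iff_ae_notMem.1 (null_ker hB)] with z a b c
    exact ⟨a, b, c⟩
  have hbb : ∀ᶠ q in 𝓝[T] q₀, ∀ s : Set (Fin d → ℝ), s ⊆ L q ⁻¹' K →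
      ∀ᵐ z ∂(volume : Measure (Fin d → ℝ)), ‖s.indicator (fun _ => (1 : ℝ)) z‖ ≤ bd z := by
    filter_upwards [hbound.filter_mono nhdsWithin_le_nhds] with q hq s hs
    refine ae_of_all _ fun z => ?_
    by_cases hz : z ∈ s
    · have h1 := (hq z).trans (hR _ (hs hz))
      have : z ∈ Metric.closedBall (0 : Fin d → ℝ) (R / c) := by
        rw [mem_closedBall_zero_iff, le_div_iff₀ hc]; linarith
      simp [bd, hz, this]
    · simp only [Set.indicator_of_notMem hz, norm_zero]
      exact Set.indicator_nonneg (fun _ _ => zero_le_one) _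
  have hlim : ∀ᵐ z ∂(volume : Measure (Fin d → ℝ)),
      (∀ᶠ q in 𝓝[T] q₀, (z ∈ L q ⁻¹' K ↔ z ∈ L q₀ ⁻¹' K)) ∧
      ∀ᶠ q in 𝓝[T] q₀, (z ∈ quadSet (L q ⁻¹' K) (A q) (B q) ↔
        z ∈ quadSet (L q₀ ⁻¹' K) (A q₀) (B q₀)) := by
    filter_upwards [hnull] with z ⟨hz, hza, hzb⟩
    have hct : Continuous fun q => L q z := hLc.comp (Continuous.prodMk_left z)
    have eL : ∀ᶠ q in 𝓝[T] q₀, (z ∈ L q ⁻¹' K ↔ z ∈ L q₀ ⁻¹' K) := by
      by_cases h : z ∈ L q₀ ⁻¹' K
      · have hi : L q₀ z ∈ interior K := by_contra fun hi => hz ⟨h, hi⟩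
        filter_upwards [(hct.continuousAt.eventually (isOpen_interior.mem_nhds hi)).filter_mono
          nhdsWithin_le_nhds] with q hq
        exact iff_of_true (show L q z ∈ K from interior_subset hq) h
      · filter_upwards [(hct.continuousAt.eventually (hKc.isOpen_compl.mem_nhds h)).filter_mono
          nhdsWithin_le_nhds] with q hq
        exact iff_of_false hq h
    have sign : ∀ C : X → (Fin d → ℝ) →ₗ[ℝ] ℝ, Continuous (fun q => C q z) → C q₀ z ≠ 0 →
        ∀ᶠ q in 𝓝[T] q₀, (0 ≤ C q z ↔ 0 ≤ C q₀ z) := by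
      intro C hC hne
      rcases lt_or_gt_of_ne hne with h | h
      · filter_upwards [(hC.continuousAt.eventually (gt_mem_nhds h)).filter_mono
          nhdsWithin_le_nhds] with q hq
        exact iff_of_false (not_le.2 hq) (not_le.2 h)
      · filter_upwards [(hC.continuousAt.eventually (lt_mem_nhds h)).filter_mono
          nhdsWithin_le_nhds] with q hq
        exact iff_of_true hq.le h.le
    refine ⟨eL, ?_⟩
    filter_upwards [eL, sign A (hAc z) hza, sign B (hBc z) hzb] with q h1 h2 h3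
    simp only [quadSet, mem_inter_iff, Set.mem_ofPred_eq, h2, h3, h1]
  have key : ∀ s : X → Set (Fin d → ℝ), (∀ q, MeasurableSet (s q)) → (∀ q, s q ⊆ L q ⁻¹' K) →
      (∀ᵐ z ∂(volume : Measure (Fin d → ℝ)), ∀ᶠ q in 𝓝[T] q₀, (z ∈ s q ↔ z ∈ s q₀)) →
      ContinuousWithinAt (fun q => volume.real (s q)) T q₀ := by
    intro s hs hsub hev
    have e : (fun q => volume.real (s q)) = fun q => ∫ z, (s q).indicator (fun _ => (1 : ℝ)) z :=
      funext fun q => by rw [integral_indicator_const _ (hs q)]; simp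
    rw [e]
    refine continuousWithinAt_of_dominated (.of_forall fun q =>
      (aestronglyMeasurable_const.indicator (hs q))) (hbb.mono fun q hq => hq _ (hsub q)) hbd ?_
    filter_upwards [hev] with z hz
    refine tendsto_const_nhds.congr' ?_
    filter_upwards [hz] with q hq
    by_cases h : z ∈ s q₀
    · simp [h, hq.2 h]
    · rw [Set.indicator_of_notMem h, Set.indicator_of_notMem fun h' => h (hq.1 h')]
  exact ((key _ hmQ (fun q => inter_subset_left.trans inter_subset_left)
    (hlim.mono fun z h => h.2)).const_mul 4).sub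
      (key _ hmS (fun q => subset_rfl) (hlim.mono fun z h => h.1))

end Vale.Agent.P248.Three
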