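import Mathlib

/-!
# P248: a parity lemma for labelled grids

The six labels are the vertices of the octahedron. `turn` and `flipY` generate the symmetries of
three planes one of which is marked. A labelling of the grid on a fundamental domain that respects
the identifications has two opposite labels in some small cube: the boundary of the domain meets a
fixed face of the octahedron an odd number of times.
-/

namespace Vale.Agent.P248.Three

/-- The vertices of the octahedron. -/
abbrev Lab := Fin 3 × Bool

/-- The opposite vertex. -/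
def opp (l : Lab) : Lab := (l.1, !l.2)

/-- The symmetry of order four. -/
def turn : Lab → Lab
  | (0, b) => (0, !b)
  | (1, b) => (2, b)
  | (2, b) => (1, !b)

/-- The symmetry that keeps the third axis. -/
def flipY : Lab → Lab
  | (0, b) => (0, !b)
  | (1, b) => (1, !b)
  | (2, b) => (2, b)

/-- Position in the face used for counting. -/
def inF : Lab → Option (Fin 3)
  | (0, true) => some 0
  | (1, false) => some 1
  | (2, true) => some 2
  | _ => none

/-- Does the triangle cover the face? -/
def triO : Option (Fin 3) → Option (Fin 3) → Option (Fin 3) → ZMod 2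
  | some a, some b, some c => if a ≠ b ∧ b ≠ c ∧ a ≠ c then 1 else 0
  | _, _, _ => 0

/-- The parity with which a square covers the face. -/
def sqO (a b c d : Option (Fin 3)) : ZMod 2 := triO a b c + triO a c d

/-- The parity with which a labelled square covers the face. -/
def sq (a b c d : Lab) : ZMod 2 := sqO (inF a) (inF b) (inF c) (inF d)

/-- The two counted edges. -/
def om (a b : Lab) : ZMod 2 :=
  if (a = (0, true) ∨ a = (1, true)) ∧ b = (2, true) ∨
      (b = (0, true) ∨ b = (1, true)) ∧ a = (2, true) then 1 else 0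

/-- The potential on the paths of order four. -/
def chiX (a : Lab) : ZMod 2 :=
  if a = (0, true) ∨ a.1 = 1 then 1 else 0

/-- The potential on the paths of the second symmetry. -/
def chiY (a : Lab) : ZMod 2 := if a = (2, true) then 1 else 0

/-- No two opposite labels. -/
def Comp (a b : Lab) : Prop := a ≠ opp b

instance (a b : Lab) : Decidable (Comp a b) := inferInstanceAs (Decidable (a ≠ opp b))

lemma om_comm : ∀ a b, om a b = om b a := by decide +kernel

lemma turn_flip_turn : ∀ a, turn (flipY (turn a)) = flipY a := by decide +kernel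

lemma turn_four : ∀ a, turn (turn (turn (turn a))) = a := by decide +kernel

lemma sq_line : ∀ a b c, Comp a b → Comp b c → Comp a c → sq a b c b = 0 := by decide +kernel

lemma sq_flat : ∀ a b, sq a b b a = 0 := by decide +kernel

lemma sq_disc : ∀ a b c d, Comp a b → Comp a c → Comp a d → Comp b c → Comp b d → Comp c d →
    sq a b c d + sq (turn a) (turn b) (turn c) (turn d) = om a b + om d c + (om b c + om a d) := by
  decide +kernel

lemma sq_side : ∀ a b c d, Comp a b → Comp a c → Comp a d → Comp b c → Comp b d → Comp c d →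
    sq (turn (flipY b)) (turn (flipY a)) (turn (flipY d)) (turn (flipY c)) = sq a b c d := by
  decide +kernel

lemma om_turn : ∀ a b, Comp a b → om a b + om (turn a) (turn b) +
    (om (turn (turn a)) (turn (turn b)) + om (turn (turn (turn a))) (turn (turn (turn b)))) =
      chiX a + chiX b := by decide +kernel

lemma om_flipY : ∀ a b, Comp a b → om a b + om (flipY a) (flipY b) = chiY a + chiY b := by
  decide +kernel

lemma chi_total : ∀ v, chiX v + chiX (turn v) + (chiY v + chiY (flipY v)) = 1 := by decide +kernel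

lemma triO_missing : ∀ (j : Fin 3) a b c, a ≠ some j → b ≠ some j → c ≠ some j →
    triO a b c = 0 := by decide +kernel

lemma cube_some : ∀ a b c d e f g h : Fin 3,
    sqO (some a) (some b) (some c) (some d) + sqO (some e) (some f) (some g) (some h) +
      (sqO (some a) (some e) (some h) (some d) + sqO (some b) (some f) (some g) (some c)) +
      (sqO (some a) (some e) (some f) (some b) + sqO (some d) (some h) (some g) (some c)) = 0 := by
  decide +kernel

lemma inF_cases : ∀ l m j, inF l = none → inF m = some j → j = l.1 → m = opp l := by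
  decide +kernel

/-- The boundary of a cube without opposite labels covers the face evenly. -/
lemma cube (v : Fin 8 → Lab) (hv : ∀ i j, Comp (v i) (v j)) :
    sq (v 0) (v 1) (v 2) (v 3) + sq (v 4) (v 5) (v 6) (v 7) +
      (sq (v 0) (v 4) (v 7) (v 3) + sq (v 1) (v 5) (v 6) (v 2)) +
      (sq (v 0) (v 4) (v 5) (v 1) + sq (v 3) (v 7) (v 6) (v 2)) = 0 := by
  unfold sq
  by_cases h : ∀ i, ∃ j, inF (v i) = some j
  · choose f hf using h
    simp only [hf]
    exact cube_some ..
  · push Not at h
    obtain ⟨i, hi⟩ := h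
    have hn : inF (v i) = none := by
      rcases hc : inF (v i) with _ | j
      · rfl
      · exact absurd hc (hi j)
    have hj : ∀ k, inF (v k) ≠ some (v i).1 := fun k hk =>
      hv k i (inF_cases _ _ _ hn hk rfl)
    simp [sqO, triO_missing _ _ _ _ (hj _) (hj _) (hj _)]

/-- Sums of consecutive pairs collapse modulo two. -/
lemma sum_pairs (f : ℕ → ZMod 2) (N : ℕ) :
    ∑ i ∈ Finset.range N, (f i + f (i + 1)) = f 0 + f N := by
  induction N with
  | zero => simp [CharTwo.add_self_eq_zero]
  | succ N ih =>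
    rw [Finset.sum_range_succ, ih, show f 0 + f N + (f N + f (N + 1)) =
      f 0 + f (N + 1) + (f N + f N) by ring, CharTwo.add_self_eq_zero, add_zero]

open Finset in
/-- No admissible labelling. -/
theorem parity (N : ℕ) (hN : 0 < N) (l : ℕ → ℕ → ℕ → Lab) (L : ℕ → Lab)
    (hadj : ∀ s a b s' a' b', s < N → a < 4 * N → b < N → s' ≤ 1 → a' ≤ 1 → b' ≤ 1 →
      ∀ s'' a'' b'', s'' ≤ 1 → a'' ≤ 1 → b'' ≤ 1 →
      Comp (l (s + s') (a + a') (b + b')) (l (s + s'') (a + a'') (b + b'')))
    (hX : ∀ a b, a ≤ 4 * N → b ≤ N → l N a b = turn (l 0 a b))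
    (hL : ∀ s a, s ≤ N → a ≤ 4 * N → l s a 0 = L (s + a))
    (h0 : ∀ s b, s ≤ N → b ≤ N → l s 0 b = L s)
    (h4 : ∀ s b, s ≤ N → b ≤ N → l s (4 * N) b = L s)
    (hG : ∀ s a, s ≤ N → a ≤ 2 * N → l s (2 * N + a) N = turn (flipY (l (N - s) a N))) : False := by
  set cs := fun s a b => sq (l s a b) (l s (a + 1) b) (l s (a + 1) (b + 1)) (l s a (b + 1)) with hcs
  set ca := fun a s b => sq (l s a b) (l (s + 1) a b) (l (s + 1) a (b + 1)) (l s a (b + 1)) with hca
  set cb := fun b s a => sq (l s a b) (l (s + 1) a b) (l (s + 1) (a + 1) b) (l s (a + 1) b) with hcb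
  have hc : ∀ s a b, s < N → a < 4 * N → b < N →
      cs s a b + cs (s + 1) a b + (ca a s b + ca (a + 1) s b) +
        (cb b s a + cb (b + 1) s a) = 0 := by
    intro s a b hs ha hb
    set c : Fin 8 → ℕ × ℕ × ℕ := ![(0, 0, 0), (0, 1, 0), (0, 1, 1), (0, 0, 1),
      (1, 0, 0), (1, 1, 0), (1, 1, 1), (1, 0, 1)]
    have hle : ∀ i, (c i).1 ≤ 1 ∧ (c i).2.1 ≤ 1 ∧ (c i).2.2 ≤ 1 := by decide
    exact cube (fun i => l (s + (c i).1) (a + (c i).2.1) (b + (c i).2.2)) fun i j =>
      hadj s a b _ _ _ hs ha hb (hle i).1 (hle i).2.1 (hle i).2.2 _ _ _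
        (hle j).1 (hle j).2.1 (hle j).2.2
  have htot : (∑ a ∈ range (4 * N), ∑ b ∈ range N, (cs 0 a b + cs N a b)) +
      (∑ s ∈ range N, ∑ b ∈ range N, (ca 0 s b + ca (4 * N) s b)) +
      (∑ s ∈ range N, ∑ a ∈ range (4 * N), (cb 0 s a + cb N s a)) = 0 := by
    calc _ = ∑ s ∈ range N, ∑ a ∈ range (4 * N), ∑ b ∈ range N,
          (cs s a b + cs (s + 1) a b + (ca a s b + ca (a + 1) s b) +
            (cb b s a + cb (b + 1) s a)) := by
          have r1 : ∀ f : ℕ → ℕ → ℕ → ZMod 2,
              ∑ a ∈ range (4 * N), ∑ b ∈ range N, ∑ s ∈ range N, f s a b =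
                ∑ s ∈ range N, ∑ a ∈ range (4 * N), ∑ b ∈ range N, f s a b := fun f => by
            rw [sum_congr rfl fun a _ => sum_comm (f := fun b s => f s a b), sum_comm]
          have r2 : ∀ f : ℕ → ℕ → ℕ → ZMod 2,
              ∑ s ∈ range N, ∑ b ∈ range N, ∑ a ∈ range (4 * N), f s a b =
                ∑ s ∈ range N, ∑ a ∈ range (4 * N), ∑ b ∈ range N, f s a b := fun f =>
            sum_congr rfl fun s _ => sum_comm
          have e1 : ∀ a b, cs 0 a b + cs N a b = ∑ s ∈ range N, (cs s a b + cs (s + 1) a b) :=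
            fun a b => (sum_pairs (fun s => cs s a b) N).symm
          have e2 : ∀ s b, ca 0 s b + ca (4 * N) s b =
              ∑ a ∈ range (4 * N), (ca a s b + ca (a + 1) s b) :=
            fun s b => (sum_pairs (fun a => ca a s b) (4 * N)).symm
          have e3 : ∀ s a, cb 0 s a + cb N s a = ∑ b ∈ range N, (cb b s a + cb (b + 1) s a) :=
            fun s a => (sum_pairs (fun b => cb b s a) N).symm
          simp only [e1, e2, e3]
          rw [r1 fun s a b => cs s a b + cs (s + 1) a b,
            r2 fun s a b => ca a s b + ca (a + 1) s b]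
          simp only [← sum_add_distrib]
      _ = 0 := sum_eq_zero fun s hs => sum_eq_zero fun a ha => sum_eq_zero fun b hb =>
          hc s a b (mem_range.1 hs) (mem_range.1 ha) (mem_range.1 hb)
  -- the sides `a = 0`, `a = 4N` and `b = 0` are degenerate
  have za : ∀ s b, s < N → b < N → ca 0 s b + ca (4 * N) s b = 0 := by
    intro s b hs hb
    simp only [hca]
    rw [h0 s b hs.le hb.le, h0 (s + 1) b hs hb.le, h0 (s + 1) (b + 1) hs hb, h0 s (b + 1) hs.le hb,
      h4 s b hs.le hb.le, h4 (s + 1) b hs hb.le, h4 (s + 1) (b + 1) hs hb, h4 s (b + 1) hs.le hb]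
    simp [sq_flat]
  have zb : ∀ s a, s < N → a < 4 * N → cb 0 s a = 0 := by
    intro s a hs ha
    have c1 := hadj s a 0 0 0 0 hs ha hN (by omega) (by omega) (by omega) 1 0 0 le_rfl (by omega)
      (by omega)
    have c2 := hadj s a 0 1 0 0 hs ha hN le_rfl (by omega) (by omega) 1 1 0 le_rfl le_rfl (by omega)
    have c3 := hadj s a 0 0 0 0 hs ha hN (by omega) (by omega) (by omega) 1 1 0 le_rfl le_rfl
      (by omega)
    simp only [hcb]
    simp only [add_zero] at c1 c2 c3
    rw [hL s a hs.le ha.le, hL (s + 1) a hs ha.le, hL (s + 1) (a + 1) hs ha,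
      hL s (a + 1) hs.le ha] at *
    rw [show s + (a + 1) = s + 1 + a by omega]
    exact sq_line _ _ _ c1 c2 c3
  -- the two halves of the side `b = N` cancel
  have zN : ∑ s ∈ range N, ∑ a ∈ range (4 * N), cb N s a = 0 := by
    have key : ∀ s a, s < N → a < 2 * N → cb N s (2 * N + a) = cb N (N - 1 - s) a := by
      intro s a hs ha
      simp only [hcb]
      rw [hG s a hs.le ha.le, hG (s + 1) a hs ha.le, show 2 * N + a + 1 = 2 * N + (a + 1) by omega,
        hG (s + 1) (a + 1) hs ha, hG s (a + 1) hs.le ha, show N - (s + 1) = N - 1 - s by omega,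
        show N - s = N - 1 - s + 1 by omega]
      have hh : ∀ p q p' q', p ≤ 1 → q ≤ 1 → p' ≤ 1 → q' ≤ 1 →
          Comp (l (N - 1 - s + p) (a + q) N) (l (N - 1 - s + p') (a + q') N) := by
        intro p q p' q' h1 h2 h3 h4'
        have := hadj (N - 1 - s) a (N - 1) p q 1 (by omega) (by omega) (by omega) h1 h2 le_rfl
          p' q' 1 h3 h4' le_rfl
        rwa [show N - 1 + 1 = N by omega] at this
      exact sq_side _ _ _ _ (hh 0 0 1 0 (by omega) (by omega) le_rfl (by omega))
        (hh 0 0 1 1 (by omega) (by omega) le_rfl le_rfl)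
        (hh 0 0 0 1 (by omega) (by omega) (by omega) le_rfl)
        (hh 1 0 1 1 le_rfl (by omega) le_rfl le_rfl)
        (hh 1 0 0 1 le_rfl (by omega) (by omega) le_rfl)
        (hh 1 1 0 1 le_rfl le_rfl (by omega) le_rfl)
    rw [sum_comm, show 4 * N = 2 * N + 2 * N by omega, sum_range_add, ← sum_add_distrib]
    refine sum_eq_zero fun a ha => ?_
    rw [sum_congr rfl fun s hs => key s a (mem_range.1 hs) (mem_range.1 ha),
      sum_range_reflect (fun s => cb N s a) N, CharTwo.add_self_eq_zero]
  -- the bottom disc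
  have hdisc : ∑ a ∈ range (4 * N), ∑ b ∈ range N, (cs 0 a b + cs N a b) = 1 := by
    have step : ∀ a b, a < 4 * N → b < N → cs 0 a b + cs N a b =
        om (l 0 a b) (l 0 (a + 1) b) + om (l 0 a (b + 1)) (l 0 (a + 1) (b + 1)) +
          (om (l 0 a b) (l 0 a (b + 1)) + om (l 0 (a + 1) b) (l 0 (a + 1) (b + 1))) := by
      intro a b ha hb
      simp only [hcs]
      rw [hX a b ha.le hb.le, hX (a + 1) b ha hb.le, hX (a + 1) (b + 1) ha hb,
        hX a (b + 1) ha.le hb]
      have hh : ∀ q r q' r', q ≤ 1 → r ≤ 1 → q' ≤ 1 → r' ≤ 1 →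
          Comp (l 0 (a + q) (b + r)) (l 0 (a + q') (b + r')) := fun q r q' r' h1 h2 h3 h4' =>
        hadj 0 a b 0 q r hN ha hb (Nat.zero_le 1) h1 h2 0 q' r' (Nat.zero_le 1) h3 h4'
      have d := sq_disc _ _ _ _ (hh 0 0 1 0 (by omega) (by omega) le_rfl (by omega))
        (hh 0 0 1 1 (by omega) (by omega) le_rfl le_rfl)
        (hh 0 0 0 1 (by omega) (by omega) (by omega) le_rfl)
        (hh 1 0 1 1 le_rfl (by omega) le_rfl le_rfl)
        (hh 1 0 0 1 le_rfl (by omega) (by omega) le_rfl)
        (hh 1 1 0 1 le_rfl le_rfl (by omega) le_rfl)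
      simp only [Nat.add_zero] at d
      rw [d]; ring
    rw [sum_congr rfl fun a ha => sum_congr rfl fun b hb => step a b (mem_range.1 ha) (mem_range.1 hb)]
    simp only [sum_add_distrib]
    rw [← sum_add_distrib]
    have e1 : ∀ a, (∑ b ∈ range N, om (l 0 a b) (l 0 (a + 1) b)) +
        ∑ b ∈ range N, om (l 0 a (b + 1)) (l 0 (a + 1) (b + 1)) =
        om (l 0 a 0) (l 0 (a + 1) 0) + om (l 0 a N) (l 0 (a + 1) N) := fun a => by
      rw [← sum_add_distrib]
      exact sum_pairs (fun b => om (l 0 a b) (l 0 (a + 1) b)) N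
    simp only [e1]
    have e2 : (∑ a ∈ range (4 * N), ∑ b ∈ range N, om (l 0 a b) (l 0 a (b + 1))) +
        ∑ a ∈ range (4 * N), ∑ b ∈ range N, om (l 0 (a + 1) b) (l 0 (a + 1) (b + 1)) = 0 := by
      rw [← sum_add_distrib,
        sum_pairs (fun a => ∑ b ∈ range N, om (l 0 a b) (l 0 a (b + 1))) (4 * N), ← sum_add_distrib]
      refine sum_eq_zero fun b hb => ?_
      have hb' := mem_range.1 hb
      rw [h0 0 b (Nat.zero_le N) hb'.le, h0 0 (b + 1) (Nat.zero_le N) hb',
        h4 0 b (Nat.zero_le N) hb'.le, h4 0 (b + 1) (Nat.zero_le N) hb', CharTwo.add_self_eq_zero]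
    rw [e2, add_zero, sum_add_distrib]
    have hLX : ∀ i, i ≤ 3 * N → L (N + i) = turn (L i) := by
      intro i hi
      rw [← hL N i le_rfl (by omega), hX i 0 (by omega) (Nat.zero_le N),
        hL 0 i (Nat.zero_le N) (by omega), zero_add]
    have hbot : ∑ a ∈ range (4 * N), om (l 0 a 0) (l 0 (a + 1) 0) =
        chiX (L 0) + chiX (turn (L 0)) := by
      have e : ∀ a ∈ range (4 * N), om (l 0 a 0) (l 0 (a + 1) 0) = om (L a) (L (a + 1)) :=
        fun a ha => by
          have := mem_range.1 ha
          rw [hL 0 a (Nat.zero_le N) (by omega), hL 0 (a + 1) (Nat.zero_le N) (by omega), zero_add,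
            zero_add]
      rw [sum_congr rfl e, show 4 * N = N + N + (N + N) by omega, sum_range_add, sum_range_add,
        sum_range_add, ← sum_add_distrib, ← sum_add_distrib, ← sum_add_distrib]
      have e' : ∀ i ∈ range N, om (L i) (L (i + 1)) + om (L (N + i)) (L (N + i + 1)) +
          (om (L (N + N + i)) (L (N + N + i + 1)) +
            om (L (N + N + (N + i))) (L (N + N + (N + i) + 1))) = chiX (L i) + chiX (L (i + 1)) := by
        intro i hi
        have hi' := mem_range.1 hi
        rw [show N + i + 1 = N + (i + 1) by omega, show N + N + i + 1 = N + (N + (i + 1)) by omega,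
          show N + N + i = N + (N + i) by omega,
          show N + N + (N + i) + 1 = N + (N + (N + (i + 1))) by omega,
          show N + N + (N + i) = N + (N + (N + i)) by omega, hLX i (by omega), hLX (i + 1) (by omega),
          hLX (N + i) (by omega), hLX (N + (i + 1)) (by omega), hLX i (by omega),
          hLX (i + 1) (by omega), hLX (N + (N + i)) (by omega), hLX (N + (N + (i + 1))) (by omega),
          hLX (N + i) (by omega), hLX (N + (i + 1)) (by omega), hLX i (by omega),
          hLX (i + 1) (by omega)]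
        refine om_turn _ _ ?_
        have := hadj 0 i 0 0 0 0 hN (by omega) hN (by omega) (by omega) (by omega) 0 1 0
          (by omega) le_rfl (by omega)
        simpa [hL 0 i (Nat.zero_le N) (by omega), hL 0 (i + 1) (Nat.zero_le N) (by omega)] using this
      rw [sum_congr rfl e', sum_pairs (fun i => chiX (L i)) N]
      rw [show L N = turn (L 0) from hLX 0 (Nat.zero_le _)]
    have htop : ∑ a ∈ range (4 * N), om (l 0 a N) (l 0 (a + 1) N) =
        chiY (L 0) + chiY (flipY (L 0)) := by
      have hE : ∀ a, a ≤ 2 * N → l 0 (2 * N + a) N = flipY (l 0 a N) := fun a ha => by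
        rw [hG 0 a (Nat.zero_le N) ha, Nat.sub_zero, hX a N (by omega) le_rfl, turn_flip_turn]
      rw [show 4 * N = 2 * N + 2 * N by omega, sum_range_add, ← sum_add_distrib]
      have e' : ∀ a ∈ range (2 * N), om (l 0 a N) (l 0 (a + 1) N) +
          om (l 0 (2 * N + a) N) (l 0 (2 * N + a + 1) N) =
          chiY (l 0 a N) + chiY (l 0 (a + 1) N) := by
        intro a ha
        have ha' := mem_range.1 ha
        rw [show 2 * N + a + 1 = 2 * N + (a + 1) by omega, hE a (by omega), hE (a + 1) (by omega)]
        refine om_flipY _ _ ?_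
        have := hadj 0 a (N - 1) 0 0 1 hN (by omega) (by omega) (by omega) (by omega) le_rfl 0 1 1
          (by omega) le_rfl le_rfl
        simpa [show N - 1 + 1 = N by omega] using this
      rw [sum_congr rfl e', sum_pairs (fun a => chiY (l 0 a N)) (2 * N),
        show (2 * N) = 2 * N + 0 by omega, hE 0 (Nat.zero_le _), h0 0 N (Nat.zero_le N) le_rfl]
    rw [hbot, htop, chi_total]
  have e2 : ∑ s ∈ range N, ∑ b ∈ range N, (ca 0 s b + ca (4 * N) s b) = 0 :=
    sum_eq_zero fun s hs => sum_eq_zero fun b hb => za s b (mem_range.1 hs) (mem_range.1 hb)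
  have e3 : ∑ s ∈ range N, ∑ a ∈ range (4 * N), (cb 0 s a + cb N s a) = 0 := by
    simp only [sum_add_distrib]
    rw [zN, add_zero]
    exact sum_eq_zero fun s hs => sum_eq_zero fun a ha => zb s a (mem_range.1 hs) (mem_range.1 ha)
  rw [hdisc, e2, e3] at htot
  exact absurd htot (by decide)

end Vale.Agent.P248.Three
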