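import Vale.Agent.P248.Three.Bal

/-!
# P248: half spaces given by the first three coordinates

`ext3` reads a vector of `ℝ³` as a functional of the first three coordinates, `lift P Q`
parametrises the hyperplanes that contain all other coordinate axes.
-/

namespace Vale.Agent.P248.Three

open MeasureTheory Set Filter
open scoped Topology

variable {m : ℕ}

/-- Cross product. -/
def cr (a b : Fin 3 → ℝ) : Fin 3 → ℝ :=
  ![a 1 * b 2 - a 2 * b 1, a 2 * b 0 - a 0 * b 2, a 0 * b 1 - a 1 * b 0]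

/-- The functional of the first three coordinates. -/
def ext3 (A : Fin 3 → ℝ) : (Fin (m + 3) → ℝ) →ₗ[ℝ] ℝ where
  toFun p := ∑ k : Fin 3, A k * p ⟨k, by omega⟩
  map_add' p q := by simp only [Pi.add_apply, mul_add, Finset.sum_add_distrib]
  map_smul' r p := by
    simp only [Pi.smul_apply, smul_eq_mul, RingHom.id_apply, Finset.mul_sum, mul_left_comm]

lemma ext3_apply (A : Fin 3 → ℝ) (p : Fin (m + 3) → ℝ) :
    ext3 A p = ∑ k : Fin 3, A k * p ⟨k, by omega⟩ := rfl

/-- A point given by its first three coordinates. -/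
def emb (q : Fin 3 → ℝ) : Fin (m + 3) → ℝ := fun i => if h : i.1 < 3 then q ⟨i.1, h⟩ else 0

lemma ext3_emb (A q : Fin 3 → ℝ) : ext3 A (emb q : Fin (m + 3) → ℝ) = dotProduct A q := by
  simp only [ext3_apply, dotProduct]
  exact Finset.sum_congr rfl fun k _ => by simp [emb, k.2]

lemma ext3_neg (A : Fin 3 → ℝ) : (ext3 (-A) : (Fin (m + 3) → ℝ) →ₗ[ℝ] ℝ) = -ext3 A :=
  LinearMap.ext fun p => by simp [ext3_apply, Finset.sum_neg_distrib]

lemma ext3_comb (a b : ℝ) (A B : Fin 3 → ℝ) (p : Fin (m + 3) → ℝ) :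
    ext3 (a • A + b • B) p = a * ext3 A p + b * ext3 B p := by
  simp only [ext3_apply, Pi.add_apply, Pi.smul_apply, smul_eq_mul, add_mul, Finset.sum_add_distrib,
    Finset.mul_sum, mul_assoc]

lemma ext3_ne {A : Fin 3 → ℝ} (h : A ≠ 0) : (ext3 A : (Fin (m + 3) → ℝ) →ₗ[ℝ] ℝ) ≠ 0 := by
  intro e
  refine h (funext fun k => ?_)
  have := LinearMap.congr_fun e (emb (Pi.single k 1))
  simpa [ext3_emb] using this

/-- The parametrisation of a hyperplane containing the last `m` coordinate axes. -/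
def lift (P Q : Fin 3 → ℝ) : (Fin (m + 2) → ℝ) →ₗ[ℝ] (Fin (m + 3) → ℝ) where
  toFun z i := if h : i.1 < 3 then z 0 * P ⟨i.1, h⟩ + z 1 * Q ⟨i.1, h⟩
    else z ⟨i.1 - 1, by omega⟩
  map_add' x y := by funext i; simp only [Pi.add_apply]; split_ifs <;> ring
  map_smul' r x := by
    funext i; simp only [Pi.smul_apply, smul_eq_mul, RingHom.id_apply]; split_ifs <;> ring

lemma lift_apply (P Q : Fin 3 → ℝ) (z : Fin (m + 2) → ℝ) (i : Fin (m + 3)) :
    lift P Q z i = if h : i.1 < 3 then z 0 * P ⟨i.1, h⟩ + z 1 * Q ⟨i.1, h⟩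
      else z ⟨i.1 - 1, by omega⟩ := rfl

lemma ext3_lift (A P Q : Fin 3 → ℝ) (z : Fin (m + 2) → ℝ) :
    ext3 A (lift P Q z) = z 0 * dotProduct A P + z 1 * dotProduct A Q := by
  simp only [ext3_apply, lift_apply, dotProduct, Finset.mul_sum, ← Finset.sum_add_distrib]
  refine Finset.sum_congr rfl fun k _ => ?_
  simp only [k.2, dif_pos, Fin.eta]
  ring

lemma lift_injective {P Q : Fin 3 → ℝ} (h : dotProduct P Q = 0) (hP : P ≠ 0) (hQ : Q ≠ 0) :
    Function.Injective (lift (m := m) P Q) := by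
  rw [← LinearMap.ker_eq_bot, LinearMap.ker_eq_bot']
  intro z hz
  have e : ∀ A, z 0 * dotProduct A P + z 1 * dotProduct A Q = 0 := fun A => by
    rw [← ext3_lift, hz, map_zero]
  have e0 := e P
  have e1 := e Q
  rw [h, mul_zero, add_zero] at e0
  rw [dotProduct_comm, h, mul_zero, zero_add] at e1
  have h0 : z 0 = 0 := (mul_eq_zero.1 e0).resolve_right (by simpa [dotProduct_self_eq_zero] using hP)
  have h1 : z 1 = 0 := (mul_eq_zero.1 e1).resolve_right (by simpa [dotProduct_self_eq_zero] using hQ)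
  funext j
  rcases Nat.lt_or_ge j.1 2 with hj | hj
  · rcases (show j.1 = 0 ∨ j.1 = 1 by omega) with e' | e'
    · rw [show j = 0 from Fin.ext e']; exact h0
    · rw [show j = 1 from Fin.ext (by simpa using e')]; exact h1
  · have := congrFun hz ⟨j.1 + 1, by omega⟩
    simp only [lift_apply, show ¬ j.1 + 1 < 3 by omega, dif_neg, not_false_eq_true,
      Nat.add_sub_cancel, Fin.eta, Pi.zero_apply] at this
    exact this

/-- The functional `A` on the hyperplane. -/
def cut (P Q A : Fin 3 → ℝ) : (Fin (m + 2) → ℝ) →ₗ[ℝ] ℝ := ext3 A ∘ₗ lift P Q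

lemma cut_apply (P Q A : Fin 3 → ℝ) (z : Fin (m + 2) → ℝ) :
    cut P Q A z = z 0 * dotProduct A P + z 1 * dotProduct A Q := ext3_lift A P Q z

lemma cut_ne {P Q A : Fin 3 → ℝ} (h : dotProduct A P ≠ 0 ∨ dotProduct A Q ≠ 0) :
    (cut P Q A : (Fin (m + 2) → ℝ) →ₗ[ℝ] ℝ) ≠ 0 := by
  intro e
  rcases h with h | h
  · exact h (by simpa [cut_apply] using LinearMap.congr_fun e (Pi.single 0 1))
  · exact h (by simpa [cut_apply] using LinearMap.congr_fun e (Pi.single 1 1))

lemma cut_neg (P Q A : Fin 3 → ℝ) :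
    (cut P Q (-A) : (Fin (m + 2) → ℝ) →ₗ[ℝ] ℝ) = -cut P Q A :=
  LinearMap.ext fun z => by simp [cut_apply]; ring

variable (K : Set (Fin (m + 3) → ℝ))

/-- The balance in the body. -/
noncomputable def bk (A B : Fin 3 → ℝ) : ℝ := bal K (ext3 A) (ext3 B)

/-- The balance in a hyperplane section. -/
noncomputable def bh (P Q A B : Fin 3 → ℝ) : ℝ := bal (lift P Q ⁻¹' K) (cut P Q A) (cut P Q B)

variable {K}

lemma bh_comm {P Q A B : Fin 3 → ℝ} : bh K P Q A B = bh K P Q B A := bal_comm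

lemma bk_comm {A B : Fin 3 → ℝ} : bk K A B = bk K B A := bal_comm

lemma bk_neg_left (hK : Good K) {A B : Fin 3 → ℝ} (hA : A ≠ 0) (hB : B ≠ 0) :
    bk K (-A) B = -bk K A B := by
  simp only [bk, ext3_neg]; exact bal_neg_left hK (ext3_ne hA) (ext3_ne hB)

lemma bk_neg_right (hK : Good K) {A B : Fin 3 → ℝ} (hA : A ≠ 0) (hB : B ≠ 0) :
    bk K A (-B) = -bk K A B := by rw [bk_comm, bk_neg_left hK hB hA, bk_comm]

lemma bh_neg_left (hK : Good K) {P Q A B : Fin 3 → ℝ}
    (hi : Function.Injective (lift (m := m) P Q))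
    (hA : dotProduct A P ≠ 0 ∨ dotProduct A Q ≠ 0) (hB : dotProduct B P ≠ 0 ∨ dotProduct B Q ≠ 0) :
    bh K P Q (-A) B = -bh K P Q A B := by
  simp only [bh, cut_neg]
  exact bal_neg_left (good_preimage hK hi) (cut_ne hA) (cut_ne hB)

lemma bh_neg_right (hK : Good K) {P Q A B : Fin 3 → ℝ}
    (hi : Function.Injective (lift (m := m) P Q))
    (hA : dotProduct A P ≠ 0 ∨ dotProduct A Q ≠ 0) (hB : dotProduct B P ≠ 0 ∨ dotProduct B Q ≠ 0) :
    bh K P Q A (-B) = -bh K P Q A B := by rw [bh_comm, bh_neg_left hK hi hB hA, bh_comm]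

/-- A measure preserving change of the parameters leaves the balance alone. -/
lemma bh_change (hK : Good K) {P Q P' Q' A B : Fin 3 → ℝ}
    (R : (Fin (m + 2) → ℝ) →ₗ[ℝ] (Fin (m + 2) → ℝ)) (hR : MeasurePreserving R volume volume)
    (e : ∀ z, lift P' Q' z = lift (m := m) P Q (R z)) : bh K P' Q' A B = bh K P Q A B := by
  have e' : lift (m := m) P' Q' = lift P Q ∘ₗ R := LinearMap.ext e
  simp only [bh, cut, e', LinearMap.coe_comp, Set.preimage_comp, ← LinearMap.comp_assoc]
  exact bal_comp (S := lift P Q ⁻¹' K)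
    (hK.compact.isClosed.measurableSet.preimage
      (lift P Q).continuous_of_finiteDimensional.measurable) hR

/-- Coordinate mirrors as linear maps. -/
def negLin {d : ℕ} (s : Finset (Fin d)) : (Fin d → ℝ) →ₗ[ℝ] (Fin d → ℝ) where
  toFun := negOn s
  map_add' p q := by funext i; simp only [negOn, Pi.add_apply]; split_ifs <;> ring
  map_smul' c p := by
    funext i; simp only [negOn, Pi.smul_apply, smul_eq_mul, RingHom.id_apply]; split_ifs <;> ring

/-- A quarter turn as a linear map. -/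
def qtLin {d : ℕ} (i k : Fin d) : (Fin d → ℝ) →ₗ[ℝ] (Fin d → ℝ) where
  toFun := qt i k
  map_add' p q := by funext j; simp only [qt_apply, Pi.add_apply]; split_ifs <;> ring
  map_smul' c p := by
    funext j; simp only [qt_apply, Pi.smul_apply, smul_eq_mul, RingHom.id_apply]
    split_ifs <;> ring

lemma fin_ne {j : Fin (m + 3)} (h : ¬ j.1 < 3) :
    (⟨j.1 - 1, by omega⟩ : Fin (m + 2)) ≠ 0 ∧ (⟨j.1 - 1, by omega⟩ : Fin (m + 2)) ≠ 1 := by
  constructor <;> intro e <;> have := congrArg Fin.val e <;> simp at this <;> omega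

lemma bh_neg_fst (hK : Good K) {P Q A B : Fin 3 → ℝ} : bh K (-P) Q A B = bh K P Q A B := by
  refine bh_change hK (negLin {0}) (negOn_preserving _) fun z => funext fun i => ?_
  by_cases h : i.1 < 3
  · simp [lift_apply, h, negLin, negOn]
  · simp [lift_apply, h, negLin, negOn, (fin_ne h).1]

lemma bh_neg_snd (hK : Good K) {P Q A B : Fin 3 → ℝ} : bh K P (-Q) A B = bh K P Q A B := by
  refine bh_change hK (negLin {1}) (negOn_preserving _) fun z => funext fun i => ?_
  by_cases h : i.1 < 3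
  · simp [lift_apply, h, negLin, negOn]
  · simp [lift_apply, h, negLin, negOn, (fin_ne h).2]

lemma bh_turn (hK : Good K) {P Q A B : Fin 3 → ℝ} : bh K (-Q) P A B = bh K P Q A B := by
  refine bh_change hK (qtLin 1 0) (qt_preserving _ _) fun z => funext fun i => ?_
  by_cases h : i.1 < 3
  · simp [lift_apply, h, qtLin, qt_apply]; ring
  · simp [lift_apply, h, qtLin, qt_apply, (fin_ne h).1, (fin_ne h).2]

lemma continuousAt_bk (hK : Good K) {A B : Fin 3 → ℝ} (hA : A ≠ 0) (hB : B ≠ 0) :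
    ContinuousAt (fun q : (Fin 3 → ℝ) × (Fin 3 → ℝ) => bk K q.1 q.2) (A, B) := by
  rw [← continuousWithinAt_univ]
  have h := continuousWithinAt_bal (X := (Fin 3 → ℝ) × (Fin 3 → ℝ)) (T := univ) (q₀ := (A, B)) hK
    (fun _ => LinearMap.id) (fun q => ext3 q.1) (fun q => ext3 q.2)
    continuous_snd (fun z => by simp only [ext3_apply]; fun_prop)
    (fun z => by simp only [ext3_apply]; fun_prop) Function.injective_id (ext3_ne hA) (ext3_ne hB)
  simpa only [bk, LinearMap.id_coe, Set.preimage_id] using h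

lemma continuousAt_bh (hK : Good K) {P Q A B : Fin 3 → ℝ}
    (hi : Function.Injective (lift (m := m) P Q))
    (hA : dotProduct A P ≠ 0 ∨ dotProduct A Q ≠ 0) (hB : dotProduct B P ≠ 0 ∨ dotProduct B Q ≠ 0) :
    ContinuousAt (fun q : (Fin 3 → ℝ) × (Fin 3 → ℝ) × (Fin 3 → ℝ) × (Fin 3 → ℝ) =>
      bh K q.1 q.2.1 q.2.2.1 q.2.2.2) (P, Q, A, B) := by
  rw [← continuousWithinAt_univ]
  have h := continuousWithinAt_bal
    (X := (Fin 3 → ℝ) × (Fin 3 → ℝ) × (Fin 3 → ℝ) × (Fin 3 → ℝ)) (T := univ) (q₀ := (P, Q, A, B))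
    hK (fun q => lift q.1 q.2.1) (fun q => cut q.1 q.2.1 q.2.2.1)
    (fun q => cut q.1 q.2.1 q.2.2.2)
    (continuous_pi fun i => by
      by_cases h : i.1 < 3 <;> simp only [lift_apply, h, dif_pos, dif_neg, not_false_eq_true] <;>
        fun_prop)
    (fun z => by simp only [cut_apply, dotProduct]; fun_prop)
    (fun z => by simp only [cut_apply, dotProduct]; fun_prop) hi (cut_ne hA) (cut_ne hB)
  simpa only [bh] using h

end Vale.Agent.P248.Three
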