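import Vale.Agent.P248.Three.Comb

/-!
# P248: equivariant maps of orthonormal frames have zeros

A continuous map from the orthonormal frames of `ℝ³` to `ℝ³` that respects the symmetries of three
planes, one of them marked, has a zero.
-/

namespace Vale.Agent.P248.Three

open Set

/-- Three vectors of `ℝ³`. -/
abbrev Frame := Fin 3 → Fin 3 → ℝ

/-- Orthonormality. -/
def IsFrame (f : Frame) : Prop := ∀ i j, dotProduct (f i) (f j) = if i = j then 1 else 0

/-- The quarter turn of the first two axes. -/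
def rotF (f : Frame) : Frame := ![-f 1, f 0, f 2]

/-- The half turn about the second axis. -/
def halfF (f : Frame) : Frame := ![-f 0, f 1, -f 2]

lemma IsFrame.rotF {f : Frame} (h : IsFrame f) : IsFrame (rotF f) := by
  intro i j
  fin_cases i <;> fin_cases j <;> simp [Three.rotF, h _ _]

lemma IsFrame.halfF {f : Frame} (h : IsFrame f) : IsFrame (halfF f) := by
  intro i j
  fin_cases i <;> fin_cases j <;> simp [Three.halfF, h _ _]

/-- The sign of the first nonzero entry. -/
noncomputable def fpos : List ℝ → Bool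
  | [] => true
  | x :: t => if x = 0 then fpos t else decide (0 < x)

lemma fpos_neg : ∀ l : List ℝ, (∃ x ∈ l, x ≠ 0) → fpos (l.map Neg.neg) = !fpos l
  | [], h => by simp at h
  | x :: t, h => by
    rcases eq_or_ne x 0 with hx | hx
    · subst hx
      have : ∃ y ∈ t, y ≠ 0 := by
        obtain ⟨y, hy, hne⟩ := h
        rcases List.mem_cons.1 hy with e | e
        · exact absurd e hne
        · exact ⟨y, e, hne⟩
      simp [fpos, fpos_neg t this]
    · rcases lt_or_gt_of_ne hx with h1 | h1 <;> simp [fpos, hx, h1, h1.le, h1.not_gt]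

/-- Quantities that change sign under the quarter turn and are fixed by the half turn. -/
noncomputable def keys (f : Frame) : List ℝ :=
  (List.finRange 3).map (fun i => f 0 i ^ 2 - f 1 i ^ 2) ++
    ((List.finRange 3).flatMap fun i => (List.finRange 3).map fun j => f 0 i * f 1 i * f 2 j)

/-- The tie break between the last two coordinates. -/
noncomputable def tie (f : Frame) : Bool := fpos (keys f)

lemma tie_halfF (f : Frame) : tie (halfF f) = tie f := by
  simp [tie, keys, halfF]

lemma tie_rotF {f : Frame} (h : IsFrame f) : tie (rotF f) = !tie f := by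
  have e : keys (rotF f) = (keys f).map Neg.neg := by
    simp only [keys, rotF, List.map_append, List.map_map, List.map_flatMap, Function.comp_def]
    congr 1
    · refine List.map_congr_left fun i _ => ?_
      simp
    · congr 1
      funext i
      refine List.map_congr_left fun j _ => ?_
      simp [mul_comm]
  rw [tie, e, fpos_neg]
  · rfl
  by_contra hz
  push Not at hz
  have h1 : ∀ i, f 0 i ^ 2 - f 1 i ^ 2 = 0 := fun i => hz _ (by simp [keys])
  have h2 : ∀ i j, f 0 i * f 1 i * f 2 j = 0 := fun i j => hz _ (by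
    simp only [keys, List.mem_append, List.mem_flatMap, List.mem_map, List.mem_finRange, true_and]
    exact Or.inr ⟨i, j, rfl⟩)
  obtain ⟨j, hj⟩ : ∃ j, f 2 j ≠ 0 := by
    by_contra hj
    push Not at hj
    simpa [dotProduct, hj] using h 2 2
  have h3 : ∀ i, f 0 i = 0 := fun i => by
    rcases mul_eq_zero.1 ((mul_eq_zero.1 (h2 i j)).resolve_right hj) with e | e
    · exact e
    · have := h1 i
      rw [e] at this
      simpa using this
  simpa [dotProduct, h3] using h 0 0

/-- The sign of a number. -/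
noncomputable def sgnB (a : ℝ) : Bool := decide (0 < a)

lemma sgnB_neg {a : ℝ} (h : a ≠ 0) : sgnB (-a) = !sgnB a := by
  rcases lt_or_gt_of_ne h with h1 | h1 <;> simp [sgnB, h1, h1.le, h1.not_gt]

/-- The vertex chosen for a value. -/
noncomputable def lab (t : Bool) (x : Fin 3 → ℝ) : Lab :=
  if |x 1| ≤ |x 0| ∧ |x 2| ≤ |x 0| then (0, sgnB (x 0))
  else if |x 2| < |x 1| then (1, sgnB (x 1))
  else if |x 1| < |x 2| then (2, sgnB (x 2))
  else if t then (1, sgnB (x 1)) else (2, sgnB (x 2))

lemma lab_spec (t : Bool) (x : Fin 3 → ℝ) :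
    (lab t x).2 = sgnB (x (lab t x).1) ∧ ∀ i, |x i| ≤ |x (lab t x).1| := by
  refine ⟨by unfold lab; split_ifs <;> rfl, fun i => ?_⟩
  unfold lab
  split_ifs with h1 h2 h3 h4 <;> fin_cases i <;> simp only [] <;>
    (try rw [not_and_or, not_le, not_le] at h1) <;>
    (try rcases h1 with h1 | h1) <;> simp_all <;> linarith

lemma lab_ne_zero (t : Bool) {x : Fin 3 → ℝ} (hx : x ≠ 0) : x (lab t x).1 ≠ 0 := fun h => by
  apply hx
  funext i
  simpa [h] using (lab_spec t x).2 i

lemma lab_turn (t : Bool) {x : Fin 3 → ℝ} (hx : x ≠ 0) :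
    lab (!t) ![-x 0, -x 2, x 1] = turn (lab t x) := by
  have hz := lab_ne_zero t hx
  unfold lab at hz ⊢
  simp only [Matrix.cons_val_zero, Matrix.cons_val_one, Matrix.cons_val, abs_neg]
  by_cases h1 : |x 1| ≤ |x 0| ∧ |x 2| ≤ |x 0|
  · simp only [h1, and_self, if_true] at hz
    simp [h1, turn, sgnB_neg hz]
  · simp only [h1, if_false] at hz
    simp only [h1, show ¬(|x 2| ≤ |x 0| ∧ |x 1| ≤ |x 0|) from fun h => h1 h.symm, if_false]
    rcases lt_trichotomy |x 1| |x 2| with h2 | h2 | h2
    · simp only [h2, h2.not_gt, if_false, if_true] at hz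
      simp [h2, h2.not_gt, turn, sgnB_neg hz]
    · simp only [h2, lt_irrefl, if_false] at hz
      cases t
      · simp only [Bool.false_eq_true, if_false] at hz
        simp [h2, turn, sgnB_neg hz]
      · simp [h2, turn]
    · simp [h2, h2.not_gt, turn]

lemma lab_flipY (t : Bool) {x : Fin 3 → ℝ} (hx : x ≠ 0) :
    lab t ![-x 0, -x 1, x 2] = flipY (lab t x) := by
  have hz := lab_ne_zero t hx
  unfold lab at hz ⊢
  simp only [Matrix.cons_val_zero, Matrix.cons_val_one, Matrix.cons_val, abs_neg]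
  split_ifs at hz ⊢ <;> simp_all [flipY, sgnB_neg]

/-- The frames of the disc, rotated about the third axis. -/
noncomputable def dom (φ A B : ℝ) : Frame :=
  let cA := Real.cos A; let sA := Real.sin A; let cB := Real.cos B; let sB := Real.sin B
  let U : Fin 3 → ℝ := ![cA, -(sA * cB), sA * sB]
  let V : Fin 3 → ℝ := ![sA * cB, cA + (1 - cA) * sB ^ 2, (1 - cA) * sB * cB]
  let W : Fin 3 → ℝ := ![-(sA * sB), (1 - cA) * sB * cB, cA + (1 - cA) * cB ^ 2]
  ![Real.cos φ • U - Real.sin φ • V, Real.sin φ • U + Real.cos φ • V, W]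

lemma isFrame_dom (φ A B : ℝ) : IsFrame (dom φ A B) := by
  have hA := Real.sin_sq_add_cos_sq A
  have hB := Real.sin_sq_add_cos_sq B
  have hP := Real.sin_sq_add_cos_sq φ
  set cA := Real.cos A
  set sA := Real.sin A
  set cB := Real.cos B
  set sB := Real.sin B
  set U : Fin 3 → ℝ := ![cA, -(sA * cB), sA * sB] with hU
  set V : Fin 3 → ℝ := ![sA * cB, cA + (1 - cA) * sB ^ 2, (1 - cA) * sB * cB] with hV
  set W : Fin 3 → ℝ := ![-(sA * sB), (1 - cA) * sB * cB, cA + (1 - cA) * cB ^ 2] with hW
  have uu : dotProduct U U = 1 := by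
    simp [hU, dotProduct, Fin.sum_univ_three]; linear_combination hA + sA ^ 2 * hB
  have vv : dotProduct V V = 1 := by
    simp [hV, dotProduct, Fin.sum_univ_three]
    linear_combination cB ^ 2 * hA + ((1 - cA ^ 2) + (1 - cA) ^ 2 * sB ^ 2) * hB
  have ww : dotProduct W W = 1 := by
    simp [hW, dotProduct, Fin.sum_univ_three]
    linear_combination sB ^ 2 * hA + ((1 - cA ^ 2) + (1 - cA) ^ 2 * cB ^ 2) * hB
  have uv : dotProduct U V = 0 := by simp [hU, hV, dotProduct, Fin.sum_univ_three]; ring
  have uw : dotProduct U W = 0 := by simp [hU, hW, dotProduct, Fin.sum_univ_three]; ring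
  have vw : dotProduct V W = 0 := by
    simp [hV, hW, dotProduct, Fin.sum_univ_three]
    linear_combination -(sB * cB) * hA + (1 - cA) ^ 2 * sB * cB * hB
  have e : dom φ A B =
      ![Real.cos φ • U - Real.sin φ • V, Real.sin φ • U + Real.cos φ • V, W] := rfl
  intro i j
  rw [e]
  have c1 := dotProduct_comm V U
  have c2 := dotProduct_comm W U
  have c3 := dotProduct_comm W V
  fin_cases i <;> fin_cases j <;>
    simp [sub_dotProduct, add_dotProduct, smul_dotProduct, dotProduct_sub, dotProduct_add,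
      dotProduct_smul, uu, vv, ww, uv, uw, vw, c1, c2, c3] <;>
    first | linear_combination hP | ring1

/-- The frames rotated about the third axis. -/
noncomputable def axisF (φ : ℝ) : Frame :=
  ![![Real.cos φ, -Real.sin φ, 0], ![Real.sin φ, Real.cos φ, 0], ![0, 0, 1]]

lemma dom_B_zero (φ A : ℝ) : dom φ A 0 = axisF (φ + A) := by
  funext i j
  fin_cases i <;> fin_cases j <;> simp [dom, axisF, Real.cos_add, Real.sin_add] <;> ring

lemma dom_A_trivial {φ A B : ℝ} (hc : Real.cos A = 1) (hs : Real.sin A = 0) :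
    dom φ A B = axisF φ := by
  funext i j
  fin_cases i <;> fin_cases j <;> simp [dom, axisF, hc, hs]

lemma dom_top (A B : ℝ) : dom (Real.pi / 2) A B = rotF (dom 0 A B) := by
  funext i j
  fin_cases i <;> fin_cases j <;> simp [dom, rotF]

lemma dom_side (φ A : ℝ) :
    dom φ (A + Real.pi) (Real.pi / 2) =
      rotF (halfF (dom (Real.pi / 2 - φ) A (Real.pi / 2))) := by
  funext i j
  fin_cases i <;> fin_cases j <;>
    simp [dom, rotF, halfF, Real.cos_pi_div_two_sub, Real.sin_pi_div_two_sub] <;> ring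

/-- A continuous equivariant map of frames vanishes somewhere. -/
theorem exists_zero (g : Frame → Fin 3 → ℝ) (hc : ContinuousOn g {f | IsFrame f})
    (hX : ∀ f, IsFrame f → g (rotF f) = ![-g f 0, -g f 2, g f 1])
    (hY : ∀ f, IsFrame f → g (halfF f) = ![-g f 0, -g f 1, g f 2]) :
    ∃ f, IsFrame f ∧ g f = 0 := by
  by_contra hne
  push Not at hne
  set D : (Fin 3 → ℝ) → Frame := fun p => dom (p 0) (p 1) (p 2) with hD
  have hDc : Continuous D := by
    refine continuous_pi fun i => continuous_pi fun j => ?_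
    fin_cases i <;> fin_cases j <;> simp [hD, dom] <;> fun_prop
  set S : Set (Fin 3 → ℝ) := Icc 0 (fun _ => 8) with hS
  have hScpt : IsCompact S := isCompact_Icc
  have hgc : ContinuousOn (fun p => g (D p)) S :=
    hc.comp hDc.continuousOn fun p _ => isFrame_dom _ _ _
  obtain ⟨p0, hp0, hmin⟩ := hScpt.exists_isMinOn ⟨0, le_rfl, fun _ => by norm_num⟩ hgc.norm
  have hm : 0 < ‖g (D p0)‖ := norm_pos_iff.2 (hne _ (isFrame_dom _ _ _))
  obtain ⟨δ, hδ, hδ'⟩ :=
    Metric.uniformContinuousOn_iff.1 (hScpt.uniformContinuousOn_of_continuous hgc) _ hm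
  obtain ⟨N, hN⟩ := exists_nat_gt (2 / δ)
  have hNr : (0 : ℝ) < N := lt_trans (by positivity) hN
  have hN0 : 0 < N := by exact_mod_cast hNr
  set h : ℝ := Real.pi / (2 * N) with hh
  have hh0 : 0 < h := by positivity
  have hhδ : h < δ := by
    rw [hh, div_lt_iff₀ (by positivity)]
    have := (div_lt_iff₀ hδ).1 hN
    nlinarith [Real.pi_le_four]
  set F : Frame → Lab := fun f => lab (tie f) (g f) with hF
  have hFX : ∀ f, IsFrame f → F (rotF f) = turn (F f) := fun f hf => by
    simp only [hF]; rw [hX f hf, tie_rotF hf, lab_turn _ (hne f hf)]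
  have hFY : ∀ f, IsFrame f → F (halfF f) = flipY (F f) := fun f hf => by
    simp only [hF]; rw [hY f hf, tie_halfF, lab_flipY _ (hne f hf)]
  set pt : ℕ → ℕ → ℕ → (Fin 3 → ℝ) := fun s a b => ![s * h, a * h, b * h] with hpt
  have hNh : (N : ℝ) * h = Real.pi / 2 := by rw [hh]; field_simp
  have hptS : ∀ s a b : ℕ, s ≤ N → a ≤ 4 * N → b ≤ N → pt s a b ∈ S := by
    intro s a b hs ha hb
    have h4 : Real.pi ≤ 4 := Real.pi_le_four
    have c : ∀ k : ℕ, k ≤ 4 * N → (k : ℝ) * h ∈ Icc (0 : ℝ) 8 := fun k hk => by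
      have : (k : ℝ) * h ≤ ((4 * N : ℕ) : ℝ) * h :=
        mul_le_mul_of_nonneg_right (by exact_mod_cast hk) hh0.le
      push_cast at this
      exact ⟨by positivity, by linarith [mul_assoc (4 : ℝ) N h]⟩
    refine ⟨fun i => ?_, fun i => ?_⟩ <;> fin_cases i <;> simp [hpt]
    all_goals first
      | positivity
      | exact (c s (by omega)).2
      | exact (c a ha).2
      | exact (c b (by omega)).2
  refine parity N hN0 (fun s a b => F (D (pt s a b))) (fun i => F (axisF (i * h))) ?_ ?_ ?_ ?_ ?_ ?_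
  · intro s a b s' a' b' hs ha hb h1 h2 h3 s'' a'' b'' k1 k2 k3
    set p := pt (s + s') (a + a') (b + b')
    set q := pt (s + s'') (a + a'') (b + b'')
    have hpS : p ∈ S := hptS _ _ _ (by omega) (by omega) (by omega)
    have hqS : q ∈ S := hptS _ _ _ (by omega) (by omega) (by omega)
    have hd : dist p q < δ := by
      refine lt_of_le_of_lt ((dist_pi_le_iff hh0.le).2 fun i => ?_) hhδ
      have c : ∀ k k' m : ℕ, k ≤ 1 → k' ≤ 1 →
          dist (((m + k : ℕ) : ℝ) * h) (((m + k' : ℕ) : ℝ) * h) ≤ h := fun k k' m hk hk' => by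
        rw [Real.dist_eq, ← sub_mul, abs_mul, abs_of_pos hh0]
        refine mul_le_of_le_one_left hh0.le ?_
        have a1 : (k : ℝ) ≤ 1 := by exact_mod_cast hk
        have a2 : (k' : ℝ) ≤ 1 := by exact_mod_cast hk'
        rw [abs_le]; push_cast
        constructor <;> linarith [(Nat.cast_nonneg k : (0 : ℝ) ≤ k),
          (Nat.cast_nonneg k' : (0 : ℝ) ≤ k')]
      fin_cases i
      · simpa [p, q, hpt] using c s' s'' s h1 k1
      · simpa [p, q, hpt] using c a' a'' a h2 k2
      · simpa [p, q, hpt] using c b' b'' b h3 k3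
    intro he
    have hclose := hδ' p hpS q hqS hd
    obtain ⟨e1, m1⟩ := lab_spec (tie (D p)) (g (D p))
    obtain ⟨e2, m2⟩ := lab_spec (tie (D q)) (g (D q))
    change F (D p) = opp (F (D q)) at he
    simp only [hF, opp, Prod.ext_iff] at he
    have h1 := he.1
    rw [e1, h1, e2] at he
    rw [h1] at m1
    set i := (lab (tie (D q)) (g (D q))).1
    have big : ∀ r ∈ S, (∀ j, |g (D r) j| ≤ |g (D r) i|) → ‖g (D p0)‖ ≤ |g (D r) i| :=
      fun r hr hj => (hmin hr).trans ((pi_norm_le_iff_of_nonneg (abs_nonneg _)).2 hj)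
    have b1 := big p hpS m1
    have b2 := big q hqS m2
    have hdi : |g (D p) i - g (D q) i| < ‖g (D p0)‖ :=
      lt_of_le_of_lt (by simpa [Real.dist_eq] using dist_le_pi_dist (g (D p)) (g (D q)) i) hclose
    have hd2 := he.2
    rcases le_or_gt (g (D p) i) 0 with hp | hp <;> rcases le_or_gt (g (D q) i) 0 with hq | hq
    · simp [sgnB, hp.not_gt, hq.not_gt] at hd2
    · rw [abs_of_nonpos hp] at b1
      rw [abs_of_pos hq] at b2
      linarith [(abs_lt.1 hdi).1]
    · rw [abs_of_pos hp] at b1
      rw [abs_of_nonpos hq] at b2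
      linarith [(abs_lt.1 hdi).2]
    · simp [sgnB, hp, hq] at hd2
  · intro a b _ _
    rw [← hFX _ (isFrame_dom _ _ _)]
    simp [hD, hpt, hNh, dom_top]
  · intro s a _ _
    simp [hD, hpt, dom_B_zero, add_mul]
  · intro s b _ _
    simp [hD, hpt, dom_A_trivial]
  · intro s b _ _
    have e : ((4 * N : ℕ) : ℝ) * h = 2 * Real.pi := by push_cast; linarith [mul_assoc (4 : ℝ) N h]
    simp only [hD, hpt, Matrix.cons_val_zero, Matrix.cons_val_one, Matrix.cons_val, e,
      dom_A_trivial (Real.cos_two_pi) (Real.sin_two_pi)]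
  · intro s a hs _
    have e1 : ((2 * N + a : ℕ) : ℝ) * h = (a : ℝ) * h + Real.pi := by
      push_cast; linarith [mul_assoc (2 : ℝ) N h]
    have e2 : ((N - s : ℕ) : ℝ) * h = Real.pi / 2 - s * h := by
      rw [Nat.cast_sub hs, sub_mul, hNh]
    rw [← hFY _ (isFrame_dom _ _ _), ← hFX _ (IsFrame.halfF (isFrame_dom _ _ _))]
    simp only [hD, hpt, Matrix.cons_val_zero, Matrix.cons_val_one, Matrix.cons_val, e1, e2, hNh,
      dom_side]

end Vale.Agent.P248.Three
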