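import Vale.Agent.P248.Three.Lift
import Vale.Agent.P248.Three.Topo

/-!
# P248: three planes that share a body and its three sections equally

For a symmetric body in `ℝ^(m+3)` there are three hyperplanes, all containing the last `m` axes,
such that every two of them cut the body into four equal parts and the other two cut each of the
three sections into four equal parts.
-/

namespace Vale.Agent.P248.Three

open MeasureTheory Set Filter
open scoped Topology

variable {m : ℕ} {K : Set (Fin (m + 3) → ℝ)}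

/-- The first horizontal normal with opening `c`. -/
def nor1 (f : Frame) (c : ℝ) : Fin 3 → ℝ := f 0 + c • f 1

/-- The second horizontal normal with opening `c`. -/
def nor2 (f : Frame) (c : ℝ) : Fin 3 → ℝ := f 1 + c • f 0

/-- A normal tilted from `n` towards `w`. -/
noncomputable def tau (n w : Fin 3 → ℝ) (s : ℝ) : Fin 3 → ℝ := (1 - |s|) • n + s • w

variable (K) in
/-- The balance of the four sectors in the marked plane. -/
noncomputable def phiC (f : Frame) (c : ℝ) : ℝ := bh K (f 0) (f 1) (nor1 f c) (nor2 f c)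

variable (K) in
/-- The balance of a tilted plane against the marked one. -/
noncomputable def phiS (p : (Fin 3 → ℝ) × (Fin 3 → ℝ)) (s : ℝ) : ℝ :=
  bk K p.2 (tau p.1 p.2 s)

/-- Admissible pairs for tilting. -/
def TD : Set ((Fin 3 → ℝ) × (Fin 3 → ℝ)) :=
  {p | dotProduct p.1 p.2 = 0 ∧ p.1 ≠ 0 ∧ dotProduct p.2 p.2 = 1}

/-- A choice of a zero in `[-1,1]`. -/
noncomputable def root (φ : ℝ → ℝ) : ℝ :=
  Classical.epsilon fun c => c ∈ Ioo (-1 : ℝ) 1 ∧ φ c = 0

/-- A monotone continuous function with a sign change has one zero. -/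
lemma root_spec {φ : ℝ → ℝ} (hc : ContinuousOn φ (Icc (-1) 1)) (h1 : φ (-1) < 0) (h2 : 0 < φ 1)
    (hm : ∀ c c', -1 < c → c < c' → c' < 1 → φ c < φ c') :
    (root φ ∈ Ioo (-1 : ℝ) 1 ∧ φ (root φ) = 0) ∧
      ∀ c ∈ Icc (-1 : ℝ) 1, φ c = 0 → c = root φ := by
  have hint : ∀ c ∈ Icc (-1 : ℝ) 1, φ c = 0 → c ∈ Ioo (-1 : ℝ) 1 := fun c hc h0 =>
    ⟨hc.1.lt_of_ne fun e => by rw [← e] at h0; linarith,
      hc.2.lt_of_ne fun e => by rw [e] at h0; linarith⟩
  obtain ⟨c, hcm, hc0⟩ := intermediate_value_Icc (by norm_num) hc ⟨h1.le, h2.le⟩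
  have hs : root φ ∈ Ioo (-1 : ℝ) 1 ∧ φ (root φ) = 0 :=
    Classical.epsilon_spec (p := fun c => c ∈ Ioo (-1 : ℝ) 1 ∧ φ c = 0)
      ⟨c, hint c hcm hc0, hc0⟩
  refine ⟨hs, fun d hd hd0 => ?_⟩
  have hd' := hint d hd hd0
  rcases lt_trichotomy d (root φ) with h | h | h
  · linarith [hm d _ hd'.1 h hs.1.2]
  · exact h
  · linarith [hm _ d hs.1.1 h hd'.2]

/-- Unique zeros depend continuously on parameters. -/
lemma continuousOn_root {X : Type*} [TopologicalSpace X] {S : Set X} {Φ : X → ℝ → ℝ}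
    (hΦ : ∀ x ∈ S, ∀ c ∈ Icc (-1 : ℝ) 1, ContinuousAt (fun p : X × ℝ => Φ p.1 p.2) (x, c))
    (hu : ∀ x ∈ S, (root (Φ x) ∈ Ioo (-1 : ℝ) 1 ∧ Φ x (root (Φ x)) = 0) ∧
      ∀ c ∈ Icc (-1 : ℝ) 1, Φ x c = 0 → c = root (Φ x)) :
    ContinuousOn (fun x => root (Φ x)) S := by
  intro x hx
  rw [ContinuousWithinAt, tendsto_nhds]
  intro U hU hxU
  have hev : ∀ᶠ y in 𝓝 x, ∀ c ∈ Icc (-1 : ℝ) 1 \ U, Φ y c ≠ 0 := by
    refine (isCompact_Icc.diff hU).eventually_forall_of_forall_eventually fun c hc => ?_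
    exact (hΦ x hx c hc.1).eventually_ne fun e => hc.2 ((hu x hx).2 c hc.1 e ▸ hxU)
  filter_upwards [hev.filter_mono nhdsWithin_le_nhds, self_mem_nhdsWithin] with y hy hyS
  by_contra hn
  exact hy _ ⟨Ioo_subset_Icc_self (hu y hyS).1.1, hn⟩ (hu y hyS).1.2

variable {f : Frame}

lemma frame_dots (hf : IsFrame f) :
    dotProduct (f 0) (f 0) = 1 ∧ dotProduct (f 1) (f 1) = 1 ∧ dotProduct (f 2) (f 2) = 1 ∧
      dotProduct (f 0) (f 1) = 0 ∧ dotProduct (f 1) (f 0) = 0 ∧ dotProduct (f 0) (f 2) = 0 ∧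
      dotProduct (f 2) (f 0) = 0 ∧ dotProduct (f 1) (f 2) = 0 ∧ dotProduct (f 2) (f 1) = 0 := by
  simp [hf _ _]

lemma nor1_dots (hf : IsFrame f) (c : ℝ) : dotProduct (nor1 f c) (f 0) = 1 ∧
    dotProduct (nor1 f c) (f 1) = c ∧ dotProduct (nor1 f c) (f 2) = 0 := by
  simp [nor1, hf _ _]

lemma nor2_dots (hf : IsFrame f) (c : ℝ) : dotProduct (nor2 f c) (f 0) = c ∧
    dotProduct (nor2 f c) (f 1) = 1 ∧ dotProduct (nor2 f c) (f 2) = 0 := by
  simp [nor2, hf _ _]

lemma frame_ne (hf : IsFrame f) (i : Fin 3) : f i ≠ 0 := fun e => by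
  simpa [e] using hf i i

lemma lift_frame_inj (hf : IsFrame f) : Function.Injective (lift (m := m) (f 0) (f 1)) :=
  lift_injective (frame_dots hf).2.2.2.1 (frame_ne hf 0) (frame_ne hf 1)

lemma nor_mem (hf : IsFrame f) (c : ℝ) : (nor1 f c, f 2) ∈ TD ∧ (nor2 f c, f 2) ∈ TD :=
  ⟨⟨(nor1_dots hf c).2.2, fun (e : nor1 f c = 0) => by
      simpa only [e, zero_dotProduct, zero_ne_one] using (nor1_dots hf c).1, (frame_dots hf).2.2.1⟩,
    ⟨(nor2_dots hf c).2.2, fun (e : nor2 f c = 0) => by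
      simpa only [e, zero_dotProduct, zero_ne_one] using (nor2_dots hf c).2.1,
      (frame_dots hf).2.2.1⟩⟩

lemma continuousAt_phiC (hK : Good K) (hf : IsFrame f) (c : ℝ) :
    ContinuousAt (fun p : Frame × ℝ => phiC K p.1 p.2) (f, c) := by
  have h := continuousAt_bh (A := nor1 f c) (B := nor2 f c) hK (lift_frame_inj hf)
    (Or.inl (by simp [nor1_dots hf])) (Or.inr (by simp [nor2_dots hf]))
  exact ContinuousAt.comp (x := (f, c)) (f := fun p : Frame × ℝ => (p.1 0, p.1 1, nor1 p.1 p.2, nor2 p.1 p.2)) h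
    (Continuous.continuousAt (by simp only [nor1, nor2]; fun_prop))

lemma phiC_root (hK : Good K) (hf : IsFrame f) :
    (root (phiC K f) ∈ Ioo (-1 : ℝ) 1 ∧ phiC K f (root (phiC K f)) = 0) ∧
      ∀ c ∈ Icc (-1 : ℝ) 1, phiC K f c = 0 → c = root (phiC K f) := by
  have hS := good_preimage hK (lift_frame_inj (m := m) hf)
  have hT := good_pos hS
  have hne : ∀ c, (cut (f 0) (f 1) (nor1 f c) : (Fin (m + 2) → ℝ) →ₗ[ℝ] ℝ) ≠ 0 := fun c =>
    cut_ne (Or.inl (by simp [nor1_dots hf]))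
  refine root_spec (fun c _ => ((continuousAt_phiC hK hf c).comp
    (f := fun c => (f, c)) (by fun_prop)).continuousWithinAt) ?_ ?_ ?_
  · have e : nor2 f (-1) = -nor1 f (-1) := by simp [nor1, nor2, add_comm]
    rw [phiC, e, bh, cut_neg, bal_neg_right hS (hne _) (hne _), bal_self hS (hne _)]
    linarith
  · have e : nor2 f 1 = nor1 f 1 := by simp [nor1, nor2, add_comm]
    rw [phiC, e, bh, bal_self hS (hne _)]
    exact hT
  · intro c c' h1 h2 h3
    refine bal_lt hS (fun z ha hb => ?_)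
      (z₀ := -((c + c') / 2) • Pi.single 0 1 + Pi.single 1 1) ?_ ?_ (Or.inl ?_)
    · simp only [cut_apply, nor1_dots hf, nor2_dots hf] at ha hb ⊢
      have hs : 0 ≤ z 0 + z 1 := by nlinarith
      constructor <;> nlinarith
    all_goals simp [cut_apply, nor1_dots hf, nor2_dots hf]
    · linarith
    · nlinarith
    · linarith

lemma tau_dots {p : (Fin 3 → ℝ) × (Fin 3 → ℝ)} (hp : p ∈ TD) (s : ℝ) :
    dotProduct (tau p.1 p.2 s) p.1 = (1 - |s|) * dotProduct p.1 p.1 ∧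
      dotProduct (tau p.1 p.2 s) p.2 = s := by
  simp [tau, hp.1, hp.2.2, dotProduct_comm p.2 p.1]

lemma tau_ne {p : (Fin 3 → ℝ) × (Fin 3 → ℝ)} (hp : p ∈ TD) (s : ℝ) : tau p.1 p.2 s ≠ 0 := by
  intro e
  obtain ⟨h1, h2⟩ := tau_dots hp s
  rw [e, zero_dotProduct] at h1 h2
  rw [← h2, abs_zero, sub_zero, one_mul] at h1
  exact hp.2.1 (dotProduct_self_eq_zero.1 h1.symm)

lemma snd_ne {p : (Fin 3 → ℝ) × (Fin 3 → ℝ)} (hp : p ∈ TD) : p.2 ≠ 0 := fun e => by
  simpa [e] using hp.2.2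

lemma continuousAt_phiS (hK : Good K) {p : (Fin 3 → ℝ) × (Fin 3 → ℝ)} (hp : p ∈ TD) (s : ℝ) :
    ContinuousAt (fun q : ((Fin 3 → ℝ) × (Fin 3 → ℝ)) × ℝ => phiS K q.1 q.2) (p, s) :=
  ContinuousAt.comp (x := (p, s))
    (f := fun q : ((Fin 3 → ℝ) × (Fin 3 → ℝ)) × ℝ => (q.1.2, tau q.1.1 q.1.2 q.2))
    (continuousAt_bk hK (snd_ne hp) (tau_ne hp s))
    (Continuous.continuousAt (by simp only [tau]; fun_prop))

lemma phiS_root (hK : Good K) {p : (Fin 3 → ℝ) × (Fin 3 → ℝ)} (hp : p ∈ TD) :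
    (root (phiS K p) ∈ Ioo (-1 : ℝ) 1 ∧ phiS K p (root (phiS K p)) = 0) ∧
      ∀ s ∈ Icc (-1 : ℝ) 1, phiS K p s = 0 → s = root (phiS K p) := by
  have hT := good_pos hK
  have hw : p.2 ≠ 0 := snd_ne hp
  have hn : 0 < dotProduct p.1 p.1 := lt_of_le_of_ne
    (Finset.sum_nonneg fun i _ => mul_self_nonneg _)
    (fun e => hp.2.1 (dotProduct_self_eq_zero.1 e.symm))
  refine root_spec (fun s _ => ((continuousAt_phiS hK hp s).comp
    (f := fun s => (p, s)) (by fun_prop)).continuousWithinAt) ?_ ?_ ?_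
  · have e : tau p.1 p.2 (-1) = -p.2 := by simp [tau]
    rw [phiS, e, bk_neg_right hK hw hw, bk, bal_self hK (ext3_ne hw)]
    linarith
  · have e : tau p.1 p.2 1 = p.2 := by simp [tau]
    rw [phiS, e, bk, bal_self hK (ext3_ne hw)]
    exact hT
  · intro s s' h1 h2 h3
    have ht : ∀ r (z : Fin (m + 3) → ℝ), ext3 (tau p.1 p.2 r) z = (1 - |r|) * ext3 p.1 z + r * ext3 p.2 z :=
      fun r z => ext3_comb ..
    set ρ : ℝ → ℝ := fun r => r / (1 - |r|) with hρ
    have a1 : 0 < 1 - |s| := by linarith [abs_lt.2 ⟨h1, h2.trans h3⟩]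
    have a2 : 0 < 1 - |s'| := by linarith [abs_lt.2 ⟨h1.trans h2, h3⟩]
    have hmono : ρ s < ρ s' := by
      rw [hρ, div_lt_div_iff₀ a1 a2]
      rcases le_or_gt 0 s with e | e <;> rcases le_or_gt 0 s' with e' | e' <;>
        simp only [abs_of_nonneg, abs_of_neg, e, e'] <;> nlinarith
    set x : ℝ := -(ρ s + ρ s') / 2
    have r1 : s = ρ s * (1 - |s|) := (div_mul_cancel₀ s a1.ne').symm
    have r2 : s' = ρ s' * (1 - |s'|) := (div_mul_cancel₀ s' a2.ne').symm
    refine bal_lt hK (fun z ha hb => ⟨ha, ?_⟩)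
      (z₀ := emb ((x / dotProduct p.1 p.1) • p.1 + p.2)) ?_ ?_ (Or.inr ?_)
    · rw [ht] at hb ⊢
      have key : 0 ≤ ext3 p.1 z + ρ s * ext3 p.2 z := by
        by_contra hneg
        push Not at hneg
        rw [show s * ext3 p.2 z = (1 - |s|) * (ρ s * ext3 p.2 z) by
          rw [← mul_assoc, mul_comm (1 - |s|), ← r1], ← mul_add] at hb
        nlinarith
      rw [show s' * ext3 p.2 z = (1 - |s'|) * (ρ s' * ext3 p.2 z) by
          rw [← mul_assoc, mul_comm (1 - |s'|), ← r2], ← mul_add]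
      exact mul_nonneg a2.le (by nlinarith)
    all_goals simp only [ext3_emb, dotProduct_add, dotProduct_smul, smul_eq_mul]
    · rw [hp.2.2, dotProduct_comm p.2 p.1, hp.1]; norm_num
    · obtain ⟨e1, e2⟩ := tau_dots hp s'
      rw [e1, e2, div_mul_eq_mul_div, ← mul_assoc, mul_div_cancel_right₀ _ hn.ne']
      have hx : x = -(ρ s + ρ s') / 2 := rfl
      have hm := mul_pos a2 (sub_pos.2 hmono)
      rw [hx]
      linarith [r2, mul_comm (ρ s) (1 - |s'|), mul_comm (ρ s') (1 - |s'|)]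
    · obtain ⟨e1, e2⟩ := tau_dots hp s
      rw [e1, e2, div_mul_eq_mul_div, ← mul_assoc, mul_div_cancel_right₀ _ hn.ne']
      have hx : x = -(ρ s + ρ s') / 2 := rfl
      have hm := mul_pos a1 (sub_pos.2 hmono)
      rw [hx]
      linarith [r1, mul_comm (ρ s) (1 - |s|), mul_comm (ρ s') (1 - |s|)]

variable (K) in
/-- The tilted normal that makes four equal parts with the marked plane. -/
noncomputable def tilt (n w : Fin 3 → ℝ) : Fin 3 → ℝ := tau n w (root (phiS K (n, w)))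

lemma tilt_neg_left (hK : Good K) {n w : Fin 3 → ℝ} (hp : (n, w) ∈ TD) :
    tilt K (-n) w = -tilt K n w := by
  have hp' : (-n, w) ∈ TD :=
    ⟨(neg_dotProduct n w).trans (neg_eq_zero.2 hp.1), neg_ne_zero.2 hp.2.1, hp.2.2⟩
  obtain ⟨⟨hs, h0⟩, -⟩ := phiS_root hK hp
  have ev : ∀ s, tau (-n) w (-s) = -tau n w s := fun s => by simp [tau]; abel
  have h1 : phiS K (-n, w) (-root (phiS K (n, w))) = 0 := by
    simp only [phiS, ev] at h0 ⊢
    rw [bk_neg_right hK (snd_ne hp) (tau_ne hp _), h0, neg_zero]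
  have := (phiS_root hK hp').2 _ ⟨by linarith [hs.2], by linarith [hs.1]⟩ h1
  rw [tilt, ← this, ev, tilt]

lemma tilt_neg_right (hK : Good K) {n w : Fin 3 → ℝ} (hp : (n, w) ∈ TD) :
    tilt K n (-w) = tilt K n w := by
  have hp' : (n, -w) ∈ TD := ⟨(dotProduct_neg n w).trans (neg_eq_zero.2 hp.1), hp.2.1, by
    show dotProduct (-w) (-w) = 1
    rw [neg_dotProduct_neg]; exact hp.2.2⟩
  obtain ⟨⟨hs, h0⟩, -⟩ := phiS_root hK hp
  have ev : ∀ s, tau n (-w) (-s) = tau n w s := fun s => by simp [tau]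
  have h1 : phiS K (n, -w) (-root (phiS K (n, w))) = 0 := by
    simp only [phiS, ev] at h0 ⊢
    rw [bk_neg_left hK (snd_ne hp) (tau_ne hp _), h0, neg_zero]
  have := (phiS_root hK hp').2 _ ⟨by linarith [hs.2], by linarith [hs.1]⟩ h1
  rw [tilt, ← this, ev, tilt]

lemma triple_ne (hf : IsFrame f) : dotProduct (f 1) (cr (f 2) (f 0)) ≠ 0 := by
  obtain ⟨a, b, c, d, -, e, -, g, -⟩ := frame_dots hf
  intro h
  have key : dotProduct (f 1) (cr (f 2) (f 0)) ^ 2 =
      dotProduct (f 0) (f 0) * (dotProduct (f 1) (f 1) * dotProduct (f 2) (f 2)) +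
        2 * (dotProduct (f 0) (f 1) * dotProduct (f 1) (f 2) * dotProduct (f 0) (f 2)) -
        dotProduct (f 0) (f 0) * dotProduct (f 1) (f 2) ^ 2 -
        dotProduct (f 1) (f 1) * dotProduct (f 0) (f 2) ^ 2 -
        dotProduct (f 2) (f 2) * dotProduct (f 0) (f 1) ^ 2 := by
    simp [cr, dotProduct, Fin.sum_univ_three]; ring
  rw [h, a, b, c, d, e, g] at key
  norm_num at key

variable (K)

/-- The opening in the marked plane. -/
noncomputable def cOf (f : Frame) : ℝ := root (phiC K f)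

/-- The first plane. -/
noncomputable def pl1 (f : Frame) : Fin 3 → ℝ := tilt K (nor1 f (cOf K f)) (f 2)

/-- The second plane. -/
noncomputable def pl2 (f : Frame) : Fin 3 → ℝ := tilt K (nor2 f (cOf K f)) (f 2)

/-- A basis vector of the first plane. -/
noncomputable def e1 (f : Frame) : Fin 3 → ℝ := cr (f 2) (nor1 f (cOf K f))

/-- A basis vector of the second plane. -/
noncomputable def e2 (f : Frame) : Fin 3 → ℝ := cr (f 2) (nor2 f (cOf K f))

/-- The three remaining conditions. -/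
noncomputable def gap (f : Frame) : Fin 3 → ℝ :=
  ![bk K (pl1 K f) (pl2 K f), bh K (e1 K f) (cr (pl1 K f) (e1 K f)) (f 2) (pl2 K f),
    -bh K (e2 K f) (cr (pl2 K f) (e2 K f)) (f 2) (pl1 K f)]

variable {K}

/-- Facts about a tilted plane, its basis and the third normal. -/
lemma plane_facts (hK : Good K) {n w : Fin 3 → ℝ} (hp : (n, w) ∈ TD) :
    dotProduct (tilt K n w) (cr w n) = 0 ∧
    dotProduct (tilt K n w) (cr (tilt K n w) (cr w n)) = 0 ∧
    Function.Injective (lift (m := m) (cr w n) (cr (tilt K n w) (cr w n))) ∧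
    dotProduct w (cr (tilt K n w) (cr w n)) ≠ 0 ∧ tilt K n w ≠ 0 := by
  obtain ⟨⟨hs, -⟩, -⟩ := phiS_root hK hp
  have hn : 0 < dotProduct n n := lt_of_le_of_ne (Finset.sum_nonneg fun i _ => mul_self_nonneg _)
    (fun e => hp.2.1 (dotProduct_self_eq_zero.1 e.symm))
  set N := tilt K n w with hN
  have hNn : dotProduct N n = (1 - |root (phiS K (n, w))|) * dotProduct n n := (tau_dots hp _).1
  have hne : dotProduct w (cr N (cr w n)) ≠ 0 := by
    rw [show dotProduct w (cr N (cr w n)) =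
      dotProduct w w * dotProduct N n - dotProduct n w * dotProduct N w by
        simp [cr, dotProduct, Fin.sum_univ_three]; ring, hp.1, hp.2.2, hNn, zero_mul, sub_zero,
      one_mul]
    exact (mul_pos (by linarith [abs_lt.2 hs]) hn).ne'
  refine ⟨?_, ?_, lift_injective ?_ ?_ fun e => by rw [e, dotProduct_zero] at hne; exact hne rfl,
    hne, tau_ne hp _⟩
  · simp [hN, tilt, tau, cr, dotProduct, Fin.sum_univ_three]; ring
  · simp [cr, dotProduct, Fin.sum_univ_three]; ring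
  · simp [cr, dotProduct, Fin.sum_univ_three]; ring
  · intro e
    have : dotProduct (cr w n) (cr w n) =
        dotProduct w w * dotProduct n n - dotProduct n w ^ 2 := by
      simp [cr, dotProduct, Fin.sum_univ_three]; ring
    rw [e, zero_dotProduct, hp.1, hp.2.2] at this
    linarith

lemma cross_facts (hK : Good K) (hf : IsFrame f) :
    dotProduct (pl2 K f) (e1 K f) ≠ 0 ∧ dotProduct (pl1 K f) (e2 K f) ≠ 0 := by
  obtain ⟨⟨hc, -⟩, -⟩ := phiC_root hK hf
  obtain ⟨h1, h2⟩ := nor_mem hf (cOf K f)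
  obtain ⟨⟨s1, -⟩, -⟩ := phiS_root hK h1
  obtain ⟨⟨s2, -⟩, -⟩ := phiS_root hK h2
  have hc2 : 1 - cOf K f ^ 2 ≠ 0 := ne_of_gt (by
    have h1 : -1 < cOf K f := hc.1
    have h2 : cOf K f < 1 := hc.2
    nlinarith)
  have t0 := triple_ne hf
  constructor
  · rw [show dotProduct (pl2 K f) (e1 K f) = (1 - |root (phiS K (nor2 f (cOf K f), f 2))|) *
      ((1 - cOf K f ^ 2) * dotProduct (f 1) (cr (f 2) (f 0))) by
        simp [pl2, e1, tilt, tau, nor1, nor2, cr, dotProduct, Fin.sum_univ_three]; ring]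
    exact mul_ne_zero (by linarith [abs_lt.2 s2]) (mul_ne_zero hc2 t0)
  · rw [show dotProduct (pl1 K f) (e2 K f) = -((1 - |root (phiS K (nor1 f (cOf K f), f 2))|) *
      ((1 - cOf K f ^ 2) * dotProduct (f 1) (cr (f 2) (f 0)))) by
        simp [pl1, e2, tilt, tau, nor1, nor2, cr, dotProduct, Fin.sum_univ_three]; ring]
    exact neg_ne_zero.2 (mul_ne_zero (by linarith [abs_lt.2 s1]) (mul_ne_zero hc2 t0))

lemma continuousOn_gap (hK : Good K) : ContinuousOn (gap K) {f | IsFrame f} := by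
  have hc : ContinuousOn (cOf K) {f | IsFrame f} :=
    continuousOn_root (fun f hf c _ => continuousAt_phiC hK hf c) fun f hf => phiC_root hK hf
  have hw : ContinuousOn (fun f : Frame => f 2) {f | IsFrame f} := (continuous_apply 2).continuousOn
  have hn1 : ContinuousOn (fun f => nor1 f (cOf K f)) {f | IsFrame f} :=
    (show Continuous fun p : Frame × ℝ => nor1 p.1 p.2 by simp only [nor1]; fun_prop).comp_continuousOn
      (continuousOn_id.prodMk hc)
  have hn2 : ContinuousOn (fun f => nor2 f (cOf K f)) {f | IsFrame f} :=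
    (show Continuous fun p : Frame × ℝ => nor2 p.1 p.2 by simp only [nor2]; fun_prop).comp_continuousOn
      (continuousOn_id.prodMk hc)
  have htilt : ∀ F : Frame → Fin 3 → ℝ, ContinuousOn F {f | IsFrame f} →
      (∀ f, IsFrame f → (F f, f 2) ∈ TD) →
      ContinuousOn (fun f => tilt K (F f) (f 2)) {f | IsFrame f} := by
    intro F hF hm
    have hr : ContinuousOn (fun p => root (phiS K p)) TD :=
      continuousOn_root (fun p hp s _ => continuousAt_phiS hK hp s) fun p hp => phiS_root hK hp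
    exact (show Continuous fun q : ((Fin 3 → ℝ) × (Fin 3 → ℝ)) × ℝ => tau q.1.1 q.1.2 q.2 by
      simp only [tau]; fun_prop).comp_continuousOn
        ((hF.prodMk hw).prodMk (hr.comp (hF.prodMk hw) hm))
  have hN1 : ContinuousOn (pl1 K) {f | IsFrame f} := htilt _ hn1 fun f hf => (nor_mem hf _).1
  have hN2 : ContinuousOn (pl2 K) {f | IsFrame f} := htilt _ hn2 fun f hf => (nor_mem hf _).2
  have hcr : Continuous fun p : (Fin 3 → ℝ) × (Fin 3 → ℝ) => cr p.1 p.2 :=
    continuous_pi fun i => by fin_cases i <;> simp [cr] <;> fun_prop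
  have hP1 : ContinuousOn (e1 K) {f | IsFrame f} := hcr.comp_continuousOn (hw.prodMk hn1)
  have hP2 : ContinuousOn (e2 K) {f | IsFrame f} := hcr.comp_continuousOn (hw.prodMk hn2)
  intro f hf
  obtain ⟨h1, h2⟩ := nor_mem hf (cOf K f)
  obtain ⟨-, -, i1, w1, n1⟩ := plane_facts hK h1
  obtain ⟨-, -, i2, w2, n2⟩ := plane_facts hK h2
  obtain ⟨x1, x2⟩ := cross_facts hK hf
  refine continuousWithinAt_pi.2 fun i => ?_
  fin_cases i <;> simp only [gap] <;>
    simp only [Fin.zero_eta, Fin.mk_one, Fin.reduceFinMk, Matrix.cons_val_zero, Matrix.cons_val_one,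
      Matrix.cons_val]
  · exact ContinuousAt.comp_continuousWithinAt (f := fun f => (pl1 K f, pl2 K f))
      (continuousAt_bk hK n1 n2) ((hN1 f hf).prodMk (hN2 f hf))
  · exact ContinuousAt.comp_continuousWithinAt
      (f := fun f => (e1 K f, cr (pl1 K f) (e1 K f), f 2, pl2 K f))
      (continuousAt_bh hK i1 (Or.inr w1) (Or.inl x1))
      ((hP1 f hf).prodMk (((hcr.comp_continuousOn (hN1.prodMk hP1)) f hf).prodMk
        ((hw f hf).prodMk (hN2 f hf))))
  · exact ContinuousWithinAt.neg (ContinuousAt.comp_continuousWithinAt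
      (f := fun f => (e2 K f, cr (pl2 K f) (e2 K f), f 2, pl1 K f))
      (continuousAt_bh hK i2 (Or.inr w2) (Or.inl x2))
      ((hP2 f hf).prodMk (((hcr.comp_continuousOn (hN2.prodMk hP2)) f hf).prodMk
        ((hw f hf).prodMk (hN1 f hf)))))

lemma cr_neg_left (a b : Fin 3 → ℝ) : cr (-a) b = -cr a b := by
  funext i; fin_cases i <;> simp [cr] <;> ring

lemma cr_neg_right (a b : Fin 3 → ℝ) : cr a (-b) = -cr a b := by
  funext i; fin_cases i <;> simp [cr] <;> ring

lemma gap_rotF (hK : Good K) (hf : IsFrame f) :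
    gap K (rotF f) = ![-gap K f 0, -gap K f 2, gap K f 1] := by
  obtain ⟨⟨hc, h0⟩, -⟩ := phiC_root hK hf
  obtain ⟨h1, h2⟩ := nor_mem hf (cOf K f)
  obtain ⟨-, -, i1, w1, n1⟩ := plane_facts hK h1
  obtain ⟨-, -, -, -, n2⟩ := plane_facts hK h2
  obtain ⟨x1, -⟩ := cross_facts hK hf
  have i1 : Function.Injective (lift (m := m) (e1 K f) (cr (pl1 K f) (e1 K f))) := i1
  have w1 : dotProduct (f 2) (cr (pl1 K f) (e1 K f)) ≠ 0 := w1
  have a1 : ∀ c, nor1 (rotF f) (-c) = -nor2 f c := fun c => by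
    funext i; simp [nor1, nor2, rotF]; ring
  have a2 : ∀ c, nor2 (rotF f) (-c) = nor1 f c := fun c => by
    funext i; simp [nor1, nor2, rotF]
  have hzero : phiC K (rotF f) (-cOf K f) = 0 := by
    rw [phiC, a1, a2, show rotF f 0 = -f 1 from rfl, show rotF f 1 = f 0 from rfl, bh_turn hK,
      bh_neg_left hK (lift_frame_inj hf) (Or.inr (by simp [nor2_dots hf]))
        (Or.inl (by simp [nor1_dots hf])), bh_comm]
    simpa [phiC, cOf] using h0
  have hcc : cOf K (rotF f) = -cOf K f :=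
    ((phiC_root hK hf.rotF).2 _ ⟨by rw [cOf]; linarith [hc.2], by rw [cOf]; linarith [hc.1]⟩ hzero).symm
  have b1 : pl1 K (rotF f) = -pl2 K f := by
    rw [pl1, hcc, a1, show rotF f 2 = f 2 from rfl, tilt_neg_left hK h2, pl2]
  have b2 : pl2 K (rotF f) = pl1 K f := by rw [pl2, hcc, a2, show rotF f 2 = f 2 from rfl, pl1]
  have d1 : e1 K (rotF f) = -e2 K f := by
    rw [e1, hcc, a1, show rotF f 2 = f 2 from rfl, cr_neg_right, e2]
  have d2 : e2 K (rotF f) = e1 K f := by rw [e2, hcc, a2, show rotF f 2 = f 2 from rfl, e1]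
  funext i
  fin_cases i <;> simp only [gap] <;>
    simp only [Fin.zero_eta, Fin.mk_one, Fin.reduceFinMk, Matrix.cons_val_zero, Matrix.cons_val_one,
      Matrix.cons_val, b1, b2, d1, d2, show rotF f 2 = f 2 from rfl]
  · rw [bk_neg_left hK (show pl2 K f ≠ 0 from n2) (show pl1 K f ≠ 0 from n1), bk_comm]
  · rw [cr_neg_left, cr_neg_right, neg_neg, bh_neg_fst hK, neg_neg]
  · rw [bh_neg_right hK i1 (Or.inr w1) (Or.inl x1), neg_neg]

lemma gap_halfF (hK : Good K) (hf : IsFrame f) :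
    gap K (halfF f) = ![-gap K f 0, -gap K f 1, gap K f 2] := by
  obtain ⟨⟨hc, h0⟩, -⟩ := phiC_root hK hf
  obtain ⟨h1, h2⟩ := nor_mem hf (cOf K f)
  obtain ⟨-, -, i1, w1, n1⟩ := plane_facts hK h1
  obtain ⟨-, -, i2, w2, n2⟩ := plane_facts hK h2
  obtain ⟨x1, x2⟩ := cross_facts hK hf
  have i1 : Function.Injective (lift (m := m) (e1 K f) (cr (pl1 K f) (e1 K f))) := i1
  have w1 : dotProduct (f 2) (cr (pl1 K f) (e1 K f)) ≠ 0 := w1
  have i2 : Function.Injective (lift (m := m) (e2 K f) (cr (pl2 K f) (e2 K f))) := i2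
  have w2 : dotProduct (f 2) (cr (pl2 K f) (e2 K f)) ≠ 0 := w2
  have a1 : ∀ c, nor1 (halfF f) (-c) = -nor1 f c := fun c => by
    funext i; simp [nor1, halfF]; ring
  have a2 : ∀ c, nor2 (halfF f) (-c) = nor2 f c := fun c => by funext i; simp [nor2, halfF]
  have hzero : phiC K (halfF f) (-cOf K f) = 0 := by
    rw [phiC, a1, a2, show halfF f 0 = -f 0 from rfl, show halfF f 1 = f 1 from rfl, bh_neg_fst hK,
      bh_neg_left hK (lift_frame_inj hf) (Or.inl (by simp [nor1_dots hf]))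
        (Or.inr (by simp [nor2_dots hf]))]
    simpa [phiC, cOf] using h0
  have hcc : cOf K (halfF f) = -cOf K f :=
    ((phiC_root hK hf.halfF).2 _ ⟨by rw [cOf]; linarith [hc.2], by rw [cOf]; linarith [hc.1]⟩ hzero).symm
  have h1' : (-nor1 f (cOf K f), f 2) ∈ TD :=
    ⟨(neg_dotProduct _ _).trans (neg_eq_zero.2 h1.1), neg_ne_zero.2 h1.2.1, h1.2.2⟩
  have b1 : pl1 K (halfF f) = -pl1 K f := by
    rw [pl1, hcc, a1, show halfF f 2 = -f 2 from rfl, tilt_neg_right hK h1',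
      tilt_neg_left hK h1, pl1]
  have b2 : pl2 K (halfF f) = pl2 K f := by
    rw [pl2, hcc, a2, show halfF f 2 = -f 2 from rfl, tilt_neg_right hK h2, pl2]
  have d1 : e1 K (halfF f) = e1 K f := by
    rw [e1, hcc, a1, show halfF f 2 = -f 2 from rfl, cr_neg_right, cr_neg_left, neg_neg, e1]
  have d2 : e2 K (halfF f) = -e2 K f := by
    rw [e2, hcc, a2, show halfF f 2 = -f 2 from rfl, cr_neg_left, e2]
  funext i
  fin_cases i <;> simp only [gap] <;>
    simp only [Fin.zero_eta, Fin.mk_one, Fin.reduceFinMk, Matrix.cons_val_zero, Matrix.cons_val_one,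
      Matrix.cons_val, b1, b2, d1, d2, show halfF f 2 = -f 2 from rfl]
  · exact bk_neg_left hK n1 n2
  · rw [cr_neg_left, bh_neg_snd hK]
    exact bh_neg_left hK i1 (Or.inr w1) (Or.inl x1)
  · rw [cr_neg_right, bh_neg_fst hK, bh_neg_snd hK]
    have hw0 : dotProduct (-f 2) (e2 K f) ≠ 0 ∨
        dotProduct (-f 2) (cr (pl2 K f) (e2 K f)) ≠ 0 :=
      Or.inr (by rw [neg_dotProduct]; exact neg_ne_zero.2 w2)
    rw [bh_neg_right hK i2 hw0 (Or.inl x2), bh_neg_left hK i2 (Or.inr w2) (Or.inl x2), neg_neg]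

/-- A plane of the frame with the share of its section. -/
def Shared (K : Set (Fin (m + 3) → ℝ)) (N A B : Fin 3 → ℝ) : Prop :=
  ∃ P Q, Function.Injective (lift (m := m) P Q) ∧ dotProduct N P = 0 ∧ dotProduct N Q = 0 ∧
    bh K P Q A B = 0

/-- The three planes. -/
theorem exists_planes (hK : Good K) : ∃ a b c : Fin 3 → ℝ,
    dotProduct c (cr a b) ≠ 0 ∧ bk K a b = 0 ∧ bk K a c = 0 ∧ bk K b c = 0 ∧
      Shared K a b c ∧ Shared K b a c ∧ Shared K c a b := by
  obtain ⟨f, hf, hz⟩ := exists_zero (gap K) (continuousOn_gap hK) (fun f hf => gap_rotF hK hf)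
    (fun f hf => gap_halfF hK hf)
  obtain ⟨⟨hc, h0⟩, -⟩ := phiC_root hK hf
  obtain ⟨h1, h2⟩ := nor_mem hf (cOf K f)
  obtain ⟨⟨s1, z1⟩, -⟩ := phiS_root hK h1
  obtain ⟨⟨s2, z2⟩, -⟩ := phiS_root hK h2
  obtain ⟨p1, q1, i1, -, -⟩ := plane_facts hK h1
  obtain ⟨p2, q2, i2, -, -⟩ := plane_facts hK h2
  have g0 : bk K (pl1 K f) (pl2 K f) = 0 := congrFun hz 0
  have g1 : bh K (e1 K f) (cr (pl1 K f) (e1 K f)) (f 2) (pl2 K f) = 0 := congrFun hz 1
  have g2 : bh K (e2 K f) (cr (pl2 K f) (e2 K f)) (f 2) (pl1 K f) = 0 :=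
    neg_eq_zero.1 (congrFun hz 2)
  set r1 := root (phiS K (nor1 f (cOf K f), f 2))
  set r2 := root (phiS K (nor2 f (cOf K f), f 2))
  have hr1 : 0 < 1 - |r1| := by linarith [abs_lt.2 s1]
  have hr2 : 0 < 1 - |r2| := by linarith [abs_lt.2 s2]
  refine ⟨pl1 K f, pl2 K f, f 2, ?_, g0, ?_, ?_, ⟨e1 K f, _, i1, p1, q1, ?_⟩,
    ⟨e2 K f, _, i2, p2, q2, ?_⟩,
    ⟨f 0, f 1, lift_frame_inj hf, (frame_dots hf).2.2.2.2.2.2.1, (frame_dots hf).2.2.2.2.2.2.2.2,
      ?_⟩⟩
  · rw [show dotProduct (f 2) (cr (pl1 K f) (pl2 K f)) = (1 - |r1|) * (1 - |r2|) *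
      ((1 - cOf K f ^ 2) * dotProduct (f 1) (cr (f 2) (f 0))) by
        simp [pl1, pl2, tilt, tau, nor1, nor2, cr, dotProduct, Fin.sum_univ_three, r1, r2]; ring]
    refine mul_ne_zero (mul_ne_zero hr1.ne' hr2.ne') (mul_ne_zero (ne_of_gt ?_) (triple_ne hf))
    have h3 : -1 < cOf K f := hc.1
    have h4 : cOf K f < 1 := hc.2
    nlinarith
  · rw [bk_comm]; exact z1
  · rw [bk_comm]; exact z2
  · rw [bh_comm]; exact g1
  · rw [bh_comm]; exact g2
  · have e : ∀ n r, dotProduct n (f 2) = 0 → 0 < 1 - |r| →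
        (cut (f 0) (f 1) (tau n (f 2) r) : (Fin (m + 2) → ℝ) →ₗ[ℝ] ℝ) =
          (1 - |r|) • cut (f 0) (f 1) n := by
      intro n r _ _
      refine LinearMap.ext fun z => ?_
      obtain ⟨-, -, -, -, -, -, d0, -, d1⟩ := frame_dots hf
      simp [cut_apply, tau, d0, d1]; ring
    rw [bh, show pl1 K f = tau (nor1 f (cOf K f)) (f 2) r1 from rfl,
      show pl2 K f = tau (nor2 f (cOf K f)) (f 2) r2 from rfl, e _ _ h1.1 hr1, e _ _ h2.1 hr2,
      bal_smul_right hr2, bal_comm, bal_smul_right hr1, bal_comm]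
    exact h0

end Vale.Agent.P248.Three
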