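import Vale.Agent.P248.Three.Planes
import Vale.Agent.P248.EquiMain

/-!
# P248: a step of the induction with three planes

A symmetric body in `ℝ^(m+3)` with three balanced planes has a box of three sides in its polar body.
This gives the sharp bound in dimension three and three quarters of it in dimension four.
-/

namespace Vale.Agent.P248.Three

open MeasureTheory Set
open scoped ENNReal Pointwise

variable {d n m : ℕ}

/-- Segments in the polar body along the coordinates of `M`. -/
theorem partial_step {K : Set (Fin (n + 1) → ℝ)} (hK : Good K) (M : Finset (Fin (n + 1)))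
    (hb : ∀ x ∈ K, 2 * ∑ i ∈ M, |x i| * volume.real (sec i K) ≤ (n + 1) * volume.real K) :
    4 * ∑ i ∈ M, volume.real (sec i K) * volume.real (pol (sec i K))
      ≤ (n + 1) ^ 2 * (volume.real K * volume.real (pol K)) := by
  classical
  set L := pol K with hL
  have hLg := hK.pol
  set V := volume.real K with hV
  have hVpos : 0 < V := ENNReal.toReal_pos
    (Measure.measure_pos_of_mem_nhds volume hK.mem_nhds).ne' hK.compact.measure_lt_top.ne
  set c : ℝ := 2 / ((n + 1) * V) with hc
  have hc0 : 0 ≤ c := by positivity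
  set y : Fin (n + 1) → ℝ := fun i => if i ∈ M then c * volume.real (sec i K) else 0 with hy
  have hy0 : ∀ i, 0 ≤ y i := fun i => by
    simp only [hy]; split_ifs
    · exact mul_nonneg hc0 measureReal_nonneg
    · exact le_rfl
  set l := (Finset.univ.toList : List (Fin (n + 1))).map fun i => Pi.single i (y i) with hl
  have hzono : ∀ m : List (Fin (n + 1)), m.Nodup →
      zono (m.map fun i => Pi.single i (y i))
        ⊆ {z | ∀ i, |z i| ≤ if i ∈ m then y i else 0} := by
    intro m
    induction m with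
    | nil => intro _ z hz i; simp [zono] at hz; simp [hz]
    | cons j m ih =>
      intro hnd z hz i
      obtain ⟨hj, hnd'⟩ := List.nodup_cons.1 hnd
      obtain ⟨⟨q, a⟩, ⟨hq, ha⟩, rfl⟩ := hz
      have hqi := ih hnd' hq i
      by_cases hij : i = j
      · subst hij
        rw [if_neg hj] at hqi
        have hq0 : q i = 0 := abs_eq_zero.1 (le_antisymm hqi (abs_nonneg _))
        simp only [List.mem_cons, true_or, if_true, Pi.add_apply, Pi.smul_apply,
          Pi.single_eq_same, hq0, zero_add, smul_eq_mul, abs_mul, abs_of_nonneg (hy0 i)]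
        exact mul_le_of_le_one_left (hy0 i) (abs_le.2 ha)
      · simpa [List.mem_cons, hij] using hqi
  have hbox : zono l ⊆ L := by
    intro z hz x hx
    have hzi := hzono _ (Finset.nodup_toList _) hz
    calc dotProduct x z ≤ ∑ i, |x i| * y i := Finset.sum_le_sum fun i _ => by
          refine (le_abs_self _).trans ?_
          rw [abs_mul]
          exact mul_le_mul_of_nonneg_left (by simpa using hzi i) (abs_nonneg _)
      _ = c / 2 * (2 * ∑ i ∈ M, |x i| * volume.real (sec i K)) := by
          simp only [hy, mul_ite, mul_zero, Finset.sum_ite_mem, Finset.univ_inter, Finset.mul_sum]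
          exact Finset.sum_congr rfl fun i _ => by ring
      _ ≤ c / 2 * ((n + 1) * V) := mul_le_mul_of_nonneg_left (hb x hx) (by positivity)
      _ = 1 := by rw [hc]; field_simp
  set w : (Fin (n + 1) → ℝ) → ℝ := fun d => ∑ i, 2 * d i * volume.real (i.removeNth '' L)
  have hw : ∀ i, w (Pi.single i (y i)) = 2 * y i * volume.real (i.removeNth '' L) := fun i => by
    simp only [w]
    rw [Finset.sum_eq_single i (fun j _ hj => by simp [Pi.single_eq_of_ne hj]) (by simp)]
    simp
  have h := zono_bound hLg.compact hLg.convex w l ?_ hbox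
  · simp only [hl, List.map_map, Function.comp_def, hw, Finset.sum_map_toList] at h
    have h2 : ∑ i, 2 * y i * volume.real (pol (sec i K)) ≤ ∑ i, 2 * y i *
        volume.real (i.removeNth '' L) :=
      Finset.sum_le_sum fun i _ => mul_le_mul_of_nonneg_left (measureReal_mono (pol_sec_proj hK i)
        (hLg.compact.image (continuous_removeNth' i)).measure_lt_top.ne) (by linarith [hy0 i])
    have h3 := mul_le_mul_of_nonneg_left (h2.trans h) (by positivity : (0 : ℝ) ≤ (n + 1) * V)
    refine le_trans (le_of_eq ?_) (h3.trans (le_of_eq ?_))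
    · simp only [hy, mul_ite, ite_mul, mul_zero, zero_mul, Finset.sum_ite_mem, Finset.univ_inter,
        Finset.mul_sum]
      refine Finset.sum_congr rfl fun i _ => ?_
      simp only [hc]
      field_simp
      ring
    · push_cast; ring
  · intro d hd A hA hAc hLA ε hε
    obtain ⟨i, -, rfl⟩ := List.mem_map.1 hd
    have he : ε • Pi.single i (y i) = (Pi.single i (ε * y i) : Fin (n + 1) → ℝ) := by
      rw [← Pi.single_smul]; rfl
    rw [hw, he]
    refine le_trans ?_ (grow_axis (mul_nonneg hε (hy0 i)) hA hAc)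
    have hm : volume.real (i.removeNth '' L) ≤ volume.real (i.removeNth '' A) :=
      measureReal_mono (image_mono hLA) (hA.image (continuous_removeNth' i)).measure_lt_top.ne
    have := mul_le_mul_of_nonneg_left hm (mul_nonneg hε (hy0 i))
    linarith

/-- The balance under a linear change of coordinates. -/
lemma bal_preimage {S : Set (Fin d → ℝ)} {φ ψ : (Fin d → ℝ) →ₗ[ℝ] ℝ}
    {W : (Fin d → ℝ) →ₗ[ℝ] (Fin d → ℝ)} (hW : LinearMap.det W ≠ 0) :
    bal (W ⁻¹' S) (φ ∘ₗ W) (ψ ∘ₗ W) = |(LinearMap.det W)⁻¹| * bal S φ ψ := by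
  have h : ∀ A : Set (Fin d → ℝ), volume.real (W ⁻¹' A) = |(LinearMap.det W)⁻¹| * volume.real A :=
    fun A => by
      rw [measureReal_def, Measure.addHaar_preimage_linearMap _ hW, ENNReal.toReal_mul,
        ENNReal.toReal_ofReal (abs_nonneg _), measureReal_def]
  rw [bal, bal, show quadSet (W ⁻¹' S) (φ ∘ₗ W) (ψ ∘ₗ W) = W ⁻¹' quadSet S φ ψ from rfl, h, h]
  ring

/-- A coordinate with a sign. -/
def sgn (A : Finset (Fin d)) (i : Fin d) : (Fin d → ℝ) →ₗ[ℝ] ℝ :=
  if i ∈ A then -LinearMap.proj i else LinearMap.proj i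

lemma sgn_apply (A : Finset (Fin d)) (i : Fin d) (p : Fin d → ℝ) : sgn A i p = negOn A p i := by
  unfold sgn; split_ifs with h <;> simp [negOn, h]

lemma sgn_ne (A : Finset (Fin d)) (i : Fin d) : sgn A i ≠ 0 := by
  intro e
  have := LinearMap.congr_fun e (Pi.single i 1)
  rw [sgn_apply] at this
  by_cases h : i ∈ A <;> simp [negOn, h] at this

lemma proj_ne (i : Fin d) : (LinearMap.proj i : (Fin d → ℝ) →ₗ[ℝ] ℝ) ≠ 0 := by
  simpa [sgn] using sgn_ne (∅ : Finset (Fin d)) i

lemma bal_sgn {S : Set (Fin d → ℝ)} (hS : Good S) (A : Finset (Fin d)) {i j : Fin d}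
    (h : bal S (LinearMap.proj i) (LinearMap.proj j) = 0) : bal S (sgn A i) (sgn A j) = 0 := by
  have pi := proj_ne i
  have pj := proj_ne j
  unfold sgn
  split_ifs
  · rw [bal_neg_left hS pi (neg_ne_zero.2 pj), bal_neg_right hS pi pj, h, neg_zero, neg_zero]
  · rw [bal_neg_left hS pi pj, h, neg_zero]
  · rw [bal_neg_right hS pi pj, h, neg_zero]
  · exact h

/-- Three half spaces in balance cut off an eighth. -/
lemma eighth {S : Set (Fin d → ℝ)} (hS : Good S) {φ ψ χ : (Fin d → ℝ) →ₗ[ℝ] ℝ} (h1 : φ ≠ 0)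
    (h2 : ψ ≠ 0) (h3 : χ ≠ 0) (a : bal S φ ψ = 0) (b : bal S φ χ = 0) (c : bal S ψ χ = 0) :
    8 * volume.real (quadSet S φ ψ ∩ {z | 0 ≤ χ z}) = volume.real S := by
  have hm : MeasurableSet S := hS.compact.isClosed.measurableSet
  have hc := fun ξ : (Fin d → ℝ) →ₗ[ℝ] ℝ => ξ.continuous_of_finiteDimensional.measurable
  set q := fun α β γ : (Fin d → ℝ) →ₗ[ℝ] ℝ => volume.real (quadSet S α β ∩ {z | 0 ≤ γ z}) with hq
  have hmq : ∀ α β γ : (Fin d → ℝ) →ₗ[ℝ] ℝ, MeasurableSet (quadSet S α β ∩ {z | 0 ≤ γ z}) := fun α β γ =>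
    ((hm.inter (measurableSet_le measurable_const (hc α))).inter
      (measurableSet_le measurable_const (hc β))).inter (measurableSet_le measurable_const (hc γ))
  have hfin : ∀ {T : Set (Fin d → ℝ)}, T ⊆ S → volume T ≠ ⊤ := fun h =>
    ne_top_of_le_ne_top hS.compact.measure_lt_top.ne (measure_mono h)
  have hsub : ∀ α β γ : (Fin d → ℝ) →ₗ[ℝ] ℝ, quadSet S α β ∩ {z : Fin d → ℝ | 0 ≤ γ z} ⊆ S := fun α β γ =>
    inter_subset_left.trans (inter_subset_left.trans inter_subset_left)
  have split : ∀ α β γ : (Fin d → ℝ) →ₗ[ℝ] ℝ, γ ≠ 0 → q α β γ + q α β (-γ) = volume.real (quadSet S α β) := by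
    intro α β γ hγ
    have hu := measureReal_union_add_inter₀ (μ := volume) (s := quadSet S α β ∩ {z | 0 ≤ γ z})
      (hmq α β (-γ)).nullMeasurableSet (hfin (hsub _ _ _)) (hfin (hsub _ _ _))
    rw [← inter_union_distrib_left, show {z : Fin d → ℝ | 0 ≤ γ z} ∪ {z | 0 ≤ (-γ) z} = univ from
      eq_univ_of_forall fun z => (le_total 0 (γ z)).imp id (fun h => by simpa using h), inter_univ,
      show volume.real ((quadSet S α β ∩ {z | 0 ≤ γ z}) ∩ (quadSet S α β ∩ {z | 0 ≤ (-γ) z})) = 0 by
        rw [measureReal_def, measure_mono_null (fun z hz => ?_) (null_ker hγ), ENNReal.toReal_zero]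
        have e1 : 0 ≤ γ z := hz.1.2
        have e2 : 0 ≤ -γ z := hz.2.2
        exact le_antisymm (by linarith) e1, add_zero] at hu
    exact hu.symm
  have rot : ∀ α β γ : (Fin d → ℝ) →ₗ[ℝ] ℝ, q α β γ = q α γ β := fun α β γ => by
    simp only [hq, quadSet, inter_assoc, inter_comm {z | 0 ≤ β z}]
  have swp : ∀ α β γ : (Fin d → ℝ) →ₗ[ℝ] ℝ, q α β γ = q β α γ := fun α β γ => by
    simp only [hq, quadSet, inter_assoc, inter_left_comm {z | 0 ≤ α z}]
  have flip : q φ (-ψ) χ = q (-φ) ψ (-χ) := by
    have e : quadSet S (-φ) ψ ∩ {z | 0 ≤ (-χ) z} =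
        Neg.neg ⁻¹' (quadSet S φ (-ψ) ∩ {z | 0 ≤ χ z}) := by
      ext z
      simp only [quadSet, mem_inter_iff, mem_preimage, Set.mem_ofPred_eq, LinearMap.neg_apply,
        map_neg, neg_neg]
      exact ⟨fun h => ⟨⟨⟨hS.neg _ h.1.1.1, h.1.1.2⟩, h.1.2⟩, h.2⟩,
        fun h => ⟨⟨⟨by simpa using hS.neg _ h.1.1.1, h.1.1.2⟩, h.1.2⟩, h.2⟩⟩
    simp only [hq, measureReal_def, e,
      (Measure.measurePreserving_neg _).measure_preimage (hmq φ (-ψ) χ).nullMeasurableSet]
  have e1 := split φ χ ψ h2
  have e2 := split ψ χ φ h1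
  have e3 := split (-φ) ψ χ h3
  have a' : bal S (-φ) ψ = 0 := by rw [bal_neg_left hS h1 h2, a, neg_zero]
  have q1 : volume.real (quadSet S (-φ) ψ) = volume.real S / 4 := by
    unfold bal at a'; linarith
  have q2 : volume.real (quadSet S φ χ) = volume.real S / 4 := by unfold bal at b; linarith
  have q3 : volume.real (quadSet S ψ χ) = volume.real S / 4 := by unfold bal at c; linarith
  have r1 : q φ χ ψ = q φ ψ χ := rot _ _ _
  have r2 : q φ χ (-ψ) = q φ (-ψ) χ := rot _ _ _
  have r3 : q ψ χ φ = q φ ψ χ := by rw [rot, swp]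
  have r4 : q ψ χ (-φ) = q (-φ) ψ χ := by rw [rot, swp]
  show 8 * q φ ψ χ = volume.real S
  linarith

/-- The first three coordinates. -/
def co (k : Fin 3) : Fin (m + 3) := ⟨k, by omega⟩

lemma co_injective : Function.Injective (co (m := m)) :=
  fun k l h => Fin.ext (show (co (m := m) k).val = (co (m := m) l).val from congrArg Fin.val h)

/-- The change of coordinates given by three planes. -/
def chg3 (a b c : Fin 3 → ℝ) : (Fin (m + 3) → ℝ) →ₗ[ℝ] (Fin (m + 3) → ℝ) where
  toFun p i := if h : i.1 < 3 then ext3 (![a, b, c] ⟨i.1, h⟩) p else p i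
  map_add' x y := by funext i; simp only [Pi.add_apply]; split_ifs <;> simp
  map_smul' r x := by
    funext i; simp only [Pi.smul_apply, smul_eq_mul, RingHom.id_apply]; split_ifs <;> simp

lemma chg3_co (a b c : Fin 3 → ℝ) (p : Fin (m + 3) → ℝ) (k : Fin 3) :
    chg3 a b c p (co k) = ext3 (![a, b, c] k) p := by
  simp only [chg3, LinearMap.coe_mk, AddHom.coe_mk, co, k.2, dif_pos, Fin.eta]

lemma chg3_det {a b c : Fin 3 → ℝ} (h : dotProduct c (cr a b) ≠ 0) :
    LinearMap.det (chg3 (m := m) a b c) ≠ 0 := by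
  intro hd
  obtain ⟨p, hp, hne⟩ := (Submodule.ne_bot_iff _).1
    (LinearMap.bot_lt_ker_of_det_eq_zero hd).ne'
  apply hne
  have hp : chg3 a b c p = 0 := hp
  set q : Fin 3 → ℝ := fun k => p (co k)
  have e : ∀ k, dotProduct (![a, b, c] k) q = 0 := fun k => by
    have e1 := chg3_co a b c p k
    rw [hp, Pi.zero_apply, ext3_apply] at e1
    exact e1.symm
  have e0 : dotProduct a q = 0 := e 0
  have e1 : dotProduct b q = 0 := e 1
  have e2 : dotProduct c q = 0 := e 2
  have key : ∀ k, dotProduct c (cr a b) * q k =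
      dotProduct a q * cr b c k + dotProduct b q * cr c a k + dotProduct c q * cr a b k := fun k => by
    fin_cases k <;> simp [cr, dotProduct, Fin.sum_univ_three] <;> ring
  have hq : ∀ k, q k = 0 := fun k => by
    have := key k
    rw [e0, e1, e2] at this
    simpa [h] using this
  funext i
  by_cases hi : i.1 < 3
  · exact hq ⟨i.1, hi⟩
  · simpa [chg3, hi] using congrFun hp i

/-- Coordinates of a section are in balance when the planes share it. -/
lemma shared_sec {K : Set (Fin (m + 3) → ℝ)} {a b c N A B : Fin 3 → ℝ}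
    (hd : LinearMap.det (chg3 (m := m) a b c) ≠ 0) {i : Fin (m + 3)} {j k : Fin (m + 2)}
    (hN : ∀ p, chg3 a b c p i = ext3 N p) (hA : ∀ p, chg3 a b c p (i.succAbove j) = ext3 A p)
    (hB : ∀ p, chg3 a b c p (i.succAbove k) = ext3 B p) (h : Shared K N A B) :
    bal (sec i (chg3 a b c '' K)) (LinearMap.proj j) (LinearMap.proj k) = 0 := by
  obtain ⟨P, Q, hi, hP, hQ, h⟩ := h
  set T := chg3 (m := m) a b c
  have hTi : Function.Injective T := (LinearMap.equivOfDetNeZero T hd).injective
  set W : (Fin (m + 2) → ℝ) →ₗ[ℝ] (Fin (m + 2) → ℝ) :=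
    { toFun := fun z => i.removeNth (T (lift P Q z))
      map_add' := fun x y => by funext l; simp [Fin.removeNth]
      map_smul' := fun r x => by funext l; simp [Fin.removeNth] } with hW
  have h0 : ∀ z, T (lift P Q z) i = 0 := fun z => by rw [hN, ext3_lift, hP, hQ]; ring
  have hins : ∀ z, i.insertNth 0 (W z) = T (lift P Q z) := fun z =>
    Fin.insertNth_eq_iff.2 ⟨(h0 z).symm, rfl⟩
  have hWi : Function.Injective W := fun x y e =>
    hi (hTi (by rw [← hins, ← hins, e]))
  have hdW : LinearMap.det W ≠ 0 := (LinearEquiv.ofInjectiveEndo W hWi).isUnit_det'.ne_zero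
  have e1 : lift P Q ⁻¹' K = W ⁻¹' sec i (T '' K) := by
    ext z
    simp only [mem_preimage, mem_sec, hins, hTi.mem_set_image]
  have e2 : ∀ (l : Fin (m + 2)) (A : Fin 3 → ℝ),
      (∀ p, T p (i.succAbove l) = ext3 A p) → cut P Q A = LinearMap.proj l ∘ₗ W := fun l A hl =>
    LinearMap.ext fun z => (hl (lift P Q z)).symm
  rw [bh, e1, e2 j A hA, e2 k B hB, bal_preimage hdW] at h
  exact (mul_eq_zero.1 h).resolve_left (abs_ne_zero.2 (inv_ne_zero hdW))

/-- The box with three sides. -/
theorem balanced_three {K : Set (Fin (m + 3) → ℝ)} (hK : Good K) :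
    ∃ T : (Fin (m + 3) → ℝ) →ₗ[ℝ] (Fin (m + 3) → ℝ), LinearMap.det T ≠ 0 ∧
      ∀ x ∈ T '' K, 2 * ∑ i ∈ Finset.univ.image co, |x i| * volume.real (sec i (T '' K))
        ≤ ((m + 2 : ℕ) + 1) * volume.real (T '' K) := by
  obtain ⟨a, b, c, htr, kab, kac, kbc, sa, sb, sc⟩ := exists_planes hK
  have hd := chg3_det (m := m) htr
  set T := chg3 (m := m) a b c
  refine ⟨T, hd, ?_⟩
  have hKT : Good (T '' K) := hK.image hd
  set S := T '' K
  have hTi : Function.Injective T := (LinearMap.equivOfDetNeZero T hd).injective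
  have eK : T ⁻¹' S = K := hTi.preimage_image K
  have ext_eq : ∀ k, (LinearMap.proj (co k) : (Fin (m + 3) → ℝ) →ₗ[ℝ] ℝ) ∘ₗ T =
      ext3 (![a, b, c] k) := fun k => LinearMap.ext fun p => chg3_co a b c p k
  have pair : ∀ k l : Fin 3, bk K (![a, b, c] k) (![a, b, c] l) = 0 →
      bal S (LinearMap.proj (co k)) (LinearMap.proj (co l)) = 0 := by
    intro k l h
    have e := bal_preimage (S := S) (φ := LinearMap.proj (co k)) (ψ := LinearMap.proj (co l)) hd
    rw [eK, ext_eq, ext_eq] at e
    rw [bk, e] at h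
    exact (mul_eq_zero.1 h).resolve_left (abs_ne_zero.2 (inv_ne_zero hd))
  intro x hx
  classical
  set M : Finset (Fin (m + 3)) := Finset.univ.image co with hM
  set A := Finset.univ.filter fun i => x i < 0 with hA
  set K' := negOn A ⁻¹' S with hK'
  have hneg : ∀ i, negOn A x i = |x i| := fun i => by
    by_cases h : x i < 0
    · simp [negOn, hA, h, abs_of_neg h]
    · simp [negOn, hA, h, abs_of_nonneg (not_lt.1 h)]
  have hx' : negOn A x ∈ K' ∩ orth M :=
    ⟨by simpa [hK', negOn_negOn] using hx, fun i _ => hneg i ▸ abs_nonneg _⟩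
  have hc : IsCompact (K' ∩ orth M) := by
    refine IsCompact.inter_right ?_ (isClosed_orth _)
    exact (good_preimage hKT (L := negLin A) fun p q e => by
      have e' : negOn A p = negOn A q := e
      rw [← negOn_negOn A p, e', negOn_negOn]).compact
  have hcv : Convex ℝ (K' ∩ orth M) := (hKT.convex.linear_preimage (negLin A)).inter (convex_orth _)
  have hp := pyramid hc hcv M (fun p hp i hi => hp.2 i hi) hx'
  have hMmem : ∀ i, i ∈ M ↔ i = co 0 ∨ i = co 1 ∨ i = co 2 := fun i => by
    simp [hM, Fin.exists_fin_succ, eq_comm]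
  have hvol : 8 * volume.real (K' ∩ orth M) = volume.real S := by
    have hm : MeasurableSet (S ∩ negOn A ⁻¹' orth M) := hKT.compact.isClosed.measurableSet.inter
      ((isClosed_orth M).measurableSet.preimage (negOn_preserving A).measurable)
    have e1 : K' ∩ orth M = negOn A ⁻¹' (S ∩ negOn A ⁻¹' orth M) := by
      ext p; simp [hK', negOn_negOn]
    have e2 : S ∩ negOn A ⁻¹' orth M =
        quadSet S (sgn A (co 0)) (sgn A (co 1)) ∩ {z | 0 ≤ sgn A (co 2) z} := by
      ext p
      simp [quadSet, orth, hMmem, sgn_apply, and_assoc]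
    rw [e1, measureReal_def, (negOn_preserving A).measure_preimage hm.nullMeasurableSet,
      ← measureReal_def, e2]
    exact eighth hKT (sgn_ne _ _) (sgn_ne _ _) (sgn_ne _ _) (bal_sgn hKT A (pair 0 1 kab))
      (bal_sgn hKT A (pair 0 2 kac)) (bal_sgn hKT A (pair 1 2 kbc))
  have hsec : ∀ i ∈ M, 4 * volume.real (sec i (K' ∩ orth M)) = volume.real (sec i S) := by
    intro i hi
    obtain ⟨k₀, k₁, k₂, rfl, h01, h02, h12, hsh⟩ : ∃ k₀ k₁ k₂ : Fin 3, i = co k₀ ∧ k₁ ≠ k₀ ∧
        k₂ ≠ k₀ ∧ (∀ l : Fin 3, l = k₀ ∨ l = k₁ ∨ l = k₂) ∧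
        Shared K (![a, b, c] k₀) (![a, b, c] k₁) (![a, b, c] k₂) := by
      rcases (hMmem i).1 hi with rfl | rfl | rfl
      · exact ⟨0, 1, 2, rfl, by decide, by decide, by decide, sa⟩
      · exact ⟨1, 0, 2, rfl, by decide, by decide, by decide, sb⟩
      · exact ⟨2, 0, 1, rfl, by decide, by decide, by decide, sc⟩
    obtain ⟨j, hj⟩ := Fin.exists_succAbove_eq (co_injective.ne h01)
    obtain ⟨l, hl⟩ := Fin.exists_succAbove_eq (co_injective.ne h02)
    have hb := shared_sec (K := K) hd (i := co k₀) (j := j) (k := l)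
      (N := ![a, b, c] k₀) (A := ![a, b, c] k₁) (B := ![a, b, c] k₂) (fun p => chg3_co a b c p k₀)
      (fun p => by rw [hj]; exact chg3_co a b c p k₁) (fun p => by rw [hl]; exact chg3_co a b c p k₂)
      hsh
    set i := co (m := m) k₀
    have hbelow : ∀ r, r ∈ below i M ↔ r = j ∨ r = l := fun r => by
      simp only [below, Finset.mem_filter, Finset.mem_univ, true_and, hM, Finset.mem_image]
      constructor
      · rintro ⟨t, ht⟩
        rcases h12 t with rfl | rfl | rfl
        · exact absurd ht.symm (Fin.succAbove_ne i r)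
        · exact Or.inl (Fin.succAbove_right_injective (ht.symm.trans hj.symm))
        · exact Or.inr (Fin.succAbove_right_injective (ht.symm.trans hl.symm))
      · rintro (rfl | rfl)
        · exact ⟨k₁, hj.symm⟩
        · exact ⟨k₂, hl.symm⟩
    have hg := hKT.sec i
    set B := below i A
    have hm : MeasurableSet (sec i S ∩ negOn B ⁻¹' orth (below i M)) :=
      hg.compact.isClosed.measurableSet.inter
        ((isClosed_orth _).measurableSet.preimage (negOn_preserving B).measurable)
    have e1 : sec i (K' ∩ orth M) =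
        negOn B ⁻¹' (sec i S ∩ negOn B ⁻¹' orth (below i M)) := by
      rw [sec_orth, hK', sec_negOn]
      ext p; simp [B, negOn_negOn]
    have e2 : sec i S ∩ negOn B ⁻¹' orth (below i M) = quadSet (sec i S) (sgn B j) (sgn B l) := by
      ext p
      simp [quadSet, orth, hbelow, sgn_apply, and_assoc]
    rw [e1, measureReal_def, (negOn_preserving B).measure_preimage hm.nullMeasurableSet,
      ← measureReal_def, e2]
    have := bal_sgn hg B hb
    unfold bal at this
    linarith
  calc 2 * ∑ i ∈ M, |x i| * volume.real (sec i S)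
      = 8 * ∑ i ∈ M, negOn A x i * volume.real (sec i (K' ∩ orth M)) := by
        rw [Finset.mul_sum, Finset.mul_sum]
        refine Finset.sum_congr rfl fun i hi => ?_
        rw [hneg, ← hsec i hi]
        ring
    _ ≤ 8 * (((m + 2 : ℕ) + 1) * volume.real (K' ∩ orth M)) :=
        mul_le_mul_of_nonneg_left hp (by norm_num)
    _ = _ := by rw [← hvol]; ring

/-- One step: three sections of one dimension less. -/
theorem three_step {K : Set (Fin (m + 3) → ℝ)} (hK : Good K) {U : ℝ}
    (hU : ∀ S : Set (Fin (m + 2) → ℝ), Good S → U ≤ volume.real S * volume.real (pol S)) :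
    12 * U ≤ ((m : ℝ) + 3) ^ 2 * (volume.real K * volume.real (pol K)) := by
  obtain ⟨T, hd, hb⟩ := balanced_three hK
  have hKT := hK.image hd
  have h := partial_step hKT (Finset.univ.image co) hb
  rw [product_image hd, Finset.sum_image fun _ _ _ _ e => co_injective e] at h
  have h3 := Finset.sum_le_sum (s := Finset.univ) fun k (_ : k ∈ Finset.univ) =>
    hU _ (hKT.sec (co (m := m) k))
  simp only [Finset.sum_const, Finset.card_univ, Fintype.card_fin, nsmul_eq_mul] at h3
  push_cast at h3 h
  nlinarith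

/-- The symmetric volume product in every dimension from three on. -/
theorem volume_product_three : ∀ (m : ℕ) (K : Set (Fin (m + 3) → ℝ)), Good K →
    2 / 9 * (12 : ℝ) ^ (m + 3) / ((m + 3).factorial : ℝ) ^ 2
      ≤ volume.real K * volume.real (pol K) := by
  intro m
  induction m with
  | zero =>
    intro K hK
    have h2 : ∀ S : Set (Fin 2 → ℝ), Good S → (8 : ℝ) ≤ volume.real S * volume.real (pol S) := by
      intro S hS
      have := mahler_turns 2 S ∅ 0 1 (by decide) (by simp) (by simp) (by decide) hS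
        (fun i hi => absurd hi (by simp)) (fun i hi => absurd hi (by simp))
      norm_num [Nat.factorial] at this
      exact this
    have := three_step (m := 0) hK h2
    norm_num [Nat.factorial] at this ⊢
    linarith
  | succ m ih =>
    intro K hK
    have := three_step (m := m + 1) hK ih
    have hpos : (0 : ℝ) < ((m + 3).factorial : ℝ) ^ 2 := by positivity
    refine le_trans (le_of_eq ?_)
      ((div_le_iff₀' (by positivity : (0 : ℝ) < (((m + 1 : ℕ) : ℝ) + 3) ^ 2)).2 this)
    rw [show m + 1 + 3 = m + 3 + 1 from rfl, Nat.factorial_succ, pow_succ]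
    push_cast
    field_simp
    ring

end Vale.Agent.P248.Three
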